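import Crest.Agent.X261.Fam.FsC
import Crest.Agent.X261.Fam.Mol
import Crest.Agent.X261.Fam77.UqA
import Crest.Agent.X261.Fam79.Min_Mg
import Crest.Agent.X261.Fam.Defs
import Crest.Agent.X261.Fam.GA
import Crest.Agent.X261.Fam69.Defs

-- ▼ part X261/Fam/FsD
section

/-!
# Row 261, package FAM, part FsD (helper94): transfer to approximate minimisers

* `ip_close`, `sl_close` : `L²` continuity of the quadratic and linear functionals;
* `key` : smooth approximation with small tension;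
* `fs : FsStmt`.
-/

set_option autoImplicit false
set_option linter.unusedSectionVars false

open Set Filter Topology MeasureTheory Matrix
open scoped ComplexConjugate ComplexOrder InnerProductSpace ContDiff NNReal

namespace Crest.Agent.X261.Fam.Fs

open Crest.Agent.R275.Geo Crest.Agent.R275.EDR890 Crest.Agent.R273.Hess_333
open Crest.Agent.R273.Fock_243

noncomputable section

variable {n q : ℕ} {H : Type*} [NormedAddCommGroup H] [InnerProductSpace ℂ H]
variable {U K : Set (Cn n)} {G : Cn n → Mt n} {a : Cn n → Cn q} {ε : ℝ} {φ : Cn n → ℝ}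

/-- smooth columns on `U` -/
def SC (U : Set (Cn n)) (θ : Cn n → Fin n → H) : Prop :=
  ∀ z ∈ U, ∀ b, ContDiffAt ℝ ∞ (fun w => θ w b) z

theorem sc_th (hU : IsOpen U) {F : Cn n → H} (hF : ContDiffOn ℝ ∞ F U) : SC U (th F) :=
  fun _ hz _ => contDiffAt_wd (hF.contDiffAt (hU.mem_nhds hz)) _

theorem SC.sub {θ θ' : Cn n → Fin n → H} (h : SC U θ) (h' : SC U θ') :
    SC U fun z => θ z - θ' z := fun z hz b => (h z hz b).sub (h' z hz b)

theorem SC.int (hK : IsCompact K) (hKU : K ⊆ U) {θ : Cn n → Fin n → H} (h : SC U θ) :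
    IntegrableOn (fun z => sq (θ z)) K :=
  ContinuousOn.integrableOn_compact hK fun z hz => (ContDiffAt.sum (s := Finset.univ)
    (f := fun b w => ‖θ w b‖ ^ 2) fun b _ =>
      (h z (hKU hz) b).norm_sq ℂ).continuousAt.continuousWithinAt

theorem norm_ip_le2 {X : Mt n} {m : ℝ} (hm : ∀ r p, ‖X r p‖ ≤ m) (B A : Fin n → H) {s : ℝ}
    (hs : 0 < s) : ‖ip X B A‖ ≤ m * n * (s / 2 * sq B + 1 / (2 * s) * sq A) := by
  rw [ip_eq]
  have h1 : ‖∑ r, ∑ p, X r p * ⟪B r, A p⟫_ℂ‖ ≤
      ∑ r, ∑ p, m * (s / 2 * ‖B r‖ ^ 2 + 1 / (2 * s) * ‖A p‖ ^ 2) := by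
    refine (norm_sum_le _ _).trans (Finset.sum_le_sum fun r _ => ?_)
    refine (norm_sum_le _ _).trans (Finset.sum_le_sum fun p _ => ?_)
    rw [norm_mul]
    exact mul_le_mul (hm r p) ((norm_inner_le_norm _ _).trans (amgm _ _ s hs)) (norm_nonneg _)
      ((norm_nonneg _).trans (hm r p))
  refine h1.trans (le_of_eq ?_)
  simp only [← Finset.mul_sum, Finset.sum_add_distrib, Finset.sum_const, Finset.card_univ,
    nsmul_eq_mul, sq, Fintype.card_fin]
  ring

theorem intg_ip (hK : IsCompact K) (hKU : K ⊆ U) {X : Cn n → Mt n} (hX : ∀ z ∈ U, SM X z)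
    (h0 : ∀ z ∉ K, X z = 0) {θ : Cn n → Fin n → H} (hθ : SC U θ) :
    Integrable fun z => ip (X z) (θ z) (θ z) :=
  intg hK hKU (fun z hz => cd_ip (hX z hz) (hθ z hz) (hθ z hz)) fun z hz => by
    simp [h0 z hz, ip_eq]

/-- `L²` continuity of a quadratic functional -/
theorem ip_close (hK : IsCompact K) (hKU : K ⊆ U) {X : Cn n → Mt n} (hX : ∀ z ∈ U, SM X z)
    (h0 : ∀ z ∉ K, X z = 0) {B : ℝ} (hB : 0 ≤ B) {η : ℝ} (hη : 0 < η) : ∃ δ : ℝ, 0 < δ ∧
      ∀ θ θ' : Cn n → Fin n → H, SC U θ → SC U θ' → ∫ z in K, sq (θ z) ≤ B →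
        ∫ z in K, sq (θ' z - θ z) ≤ δ →
        ‖(∫ z, ip (X z) (θ' z) (θ' z)) - ∫ z, ip (X z) (θ z) (θ z)‖ ≤ η := by
  obtain ⟨m, hm0, hm⟩ := bdd hK (f := fun z => ∑ r : Fin n × Fin n, ‖X z r.1 r.2‖) fun z hz =>
    tendsto_finsetSum _ fun r _ => (hX z (hKU hz) r.1 r.2).continuousAt.norm
  have hm' : ∀ z ∈ K, ∀ r p, ‖X z r p‖ ≤ m := fun z hz r p =>
    (Finset.single_le_sum (f := fun r : Fin n × Fin n => ‖X z r.1 r.2‖)
      (fun _ _ => norm_nonneg _) (Finset.mem_univ (r, p))).trans (hm z hz)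
  set M : ℝ := m * n with hM
  have hM0 : 0 ≤ M := by positivity
  set s : ℝ := η / (2 * (M * B + 1)) with hs
  have hs0 : 0 < s := by positivity
  refine ⟨η / (2 * (M * (1 / s + 1) + 1)), by positivity, fun θ θ' hθ hθ' h1 h2 => ?_⟩
  have i1 := (hθ.int hK hKU).const_mul (M * s)
  have i2 := ((hθ'.sub hθ).int hK hKU).const_mul (M * (1 / s + 1))
  rw [← integral_sub (intg_ip hK hKU hX h0 hθ') (intg_ip hK hKU hX h0 hθ),
    ← setIntegral_eq_integral_of_forall_compl_eq_zero (s := K) fun z hz => by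
      simp [h0 z hz, ip_eq]]
  refine (norm_integral_le_of_norm_le (i1.fun_add i2) ?_).trans ?_
  · filter_upwards [ae_restrict_mem hK.measurableSet] with z hz
    set δ := θ' z - θ z with hδ
    have e : ip (X z) (θ' z) (θ' z) - ip (X z) (θ z) (θ z) =
        ip (X z) (θ z) δ + ip (X z) δ (θ z) + ip (X z) δ δ := by
      simp only [hδ, ip_sub_left, ip_sub_right]; ring
    have h3 := norm_ip_le2 (hm' z hz) (θ z) δ hs0
    have h4 := norm_ip_le2 (hm' z hz) δ (θ z) (one_div_pos.2 hs0)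
    have h5 := norm_ip_le2 (hm' z hz) δ δ one_pos
    have e1 : 1 / (2 * (1 / s)) = s / 2 := by field_simp
    have e2 : 1 / (2 * s) = 1 / s / 2 := by field_simp
    rw [e1] at h4
    rw [e2] at h3
    rw [e]
    refine norm_add₃_le.trans ?_
    rw [← hM] at h3 h4 h5
    linarith
  · rw [integral_add i1 i2, integral_const_mul, integral_const_mul]
    have h3 : M * s * ∫ z in K, sq (θ z) ≤ η / 2 := by
      refine (mul_le_mul_of_nonneg_left h1 (by positivity)).trans ?_
      rw [hs, mul_div_assoc', div_mul_eq_mul_div, div_le_div_iff₀ (by positivity) two_pos]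
      nlinarith
    have h4 : M * (1 / s + 1) * ∫ z in K, sq (θ' z - θ z) ≤ η / 2 := by
      refine (mul_le_mul_of_nonneg_left h2 (by positivity)).trans ?_
      rw [mul_div_assoc', div_le_div_iff₀ (by positivity) two_pos]
      nlinarith
    linarith

theorem cs_int {W : Type*} [NormedAddCommGroup W] [NormedSpace ℝ W] (hK : IsCompact K)
    {f : Cn n → W} {g : Cn n → ℝ} (hg : IntegrableOn g K) (h0 : ∀ z ∉ K, f z = 0)
    (h : ∀ z ∈ K, ‖f z‖ ^ 2 ≤ g z) : ‖∫ z, f z‖ ^ 2 ≤ (volume.real K + 1) * ∫ z in K, g z := by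
  refine sq_le_of_forall (norm_nonneg _) measureReal_nonneg
    (setIntegral_nonneg hK.measurableSet fun z hz => (sq_nonneg _).trans (h z hz)) fun t ht => ?_
  have i1 : IntegrableOn (fun _ : Cn n => t / 2) K := integrableOn_const hK.measure_lt_top.ne
  have e : t / 2 * volume.real K = ∫ _ in K, t / 2 := by
    rw [setIntegral_const, smul_eq_mul, mul_comm]
  rw [e, ← integral_const_mul, ← integral_add i1 (hg.const_mul _),
    ← setIntegral_eq_integral_of_forall_compl_eq_zero h0]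
  refine norm_integral_le_of_norm_le (i1.fun_add (hg.const_mul _)) ?_
  filter_upwards [ae_restrict_mem hK.measurableSet] with z hz
  have h7 := amgm 1 ‖f z‖ t ht
  have h8 := mul_le_mul_of_nonneg_left (h z hz) (show 0 ≤ 1 / (2 * t) by positivity)
  linarith

/-- `L²` continuity of the linear functionals -/
theorem sl_close (hK : IsCompact K) (hKU : K ⊆ U) (hU : IsOpen U) (ha : DifferentiableOn ℂ a U)
    {χ : Cn n → ℝ} (hχ : ContDiff ℝ ∞ χ) (hs : tsupport χ ⊆ K) : ∃ M : ℝ, 0 ≤ M ∧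
      ∀ F F' : Cn n → H, SC U (th F) → SC U (th F') → ∀ (b : Fin n) (I : FI n),
        ‖(∫ z, wd (true, b) (cu χ) z • Sl a F' z I) - ∫ z, wd (true, b) (cu χ) z • Sl a F z I‖ ^ 2
          ≤ M * ∫ z in K, sq (th F' z - th F z) := by
  have hψ : ∀ z b, ContDiffAt ℝ ∞ (wd (true, b) (cu χ)) z := fun z b =>
    contDiffAt_wd (contDiffAt_cu hχ.contDiffAt) _
  have h0 : ∀ b, ∀ z ∉ K, wd (true, b) (cu χ) z = 0 := fun b z hz =>
    wd_zero_of (ev_zero hK (fun w hw => by
      simp [cu, image_eq_zero_of_notMem_tsupport fun h => hw (hs h)]) hz) _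
  have hb : ∀ r : Fin n × FI n, ∃ m, 0 ≤ m ∧ ∀ z ∈ K, ‖wd (true, r.1) (cu χ) z‖ ^ 2 *
      ((vI (Cf a z) * (vI (Cf a z))ᴴ) r.2 r.2).re ≤ m := fun r =>
    bdd hK fun z hz => ((hψ z r.1).continuousAt.norm.pow 2).mul
      (cd_re ((vI_sm hU ha (hKU hz)).mul (vI_sm hU ha (hKU hz)).ct _ _)).continuousAt
  choose m hm0 hm using hb
  have hM : 0 ≤ ∑ r, m r := Finset.sum_nonneg fun r _ => hm0 r
  refine ⟨(volume.real K + 1) * ∑ r, m r, by positivity, fun F F' hF hF' b I => ?_⟩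
  have i : ∀ F : Cn n → H, SC U (th F) →
      Integrable fun z => wd (true, b) (cu χ) z • Sl a F z I := fun F hF =>
    intg hK hKU (fun z hz => (hψ z b).smul (ContDiffAt.sum (s := Finset.univ)
      (f := fun c w => vI (Cf a w) I c • th F w c) fun c _ =>
        (vI_sm hU ha hz I c).smul (hF z hz c))) fun z hz => by rw [h0 b z hz, zero_smul]
  rw [← integral_sub (i F' hF') (i F hF), mul_assoc, ← integral_const_mul]
  refine cs_int hK (((hF'.sub hF).int hK hKU).const_mul _) (fun z hz => by simp [h0 b z hz])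
    fun z hz => ?_
  have e : wd (true, b) (cu χ) z • Sl a F' z I - wd (true, b) (cu χ) z • Sl a F z I =
      wd (true, b) (cu χ) z • ac (vI (Cf a z)) (th F' z - th F z) I := by
    rw [ac_sub, ← smul_sub]; rfl
  rw [e, norm_smul, mul_pow]
  refine (mul_le_mul_of_nonneg_left (norm_ac_sq_le _ _ I) (sq_nonneg _)).trans ?_
  rw [← mul_assoc]
  exact mul_le_mul_of_nonneg_right ((hm (b, I) z hz).trans
    (Finset.single_le_sum (fun r _ => hm0 r) (Finset.mem_univ (b, I)))) (sq_nonneg' _)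

theorem sq_le_two (θ θ' : Fin n → H) : sq θ ≤ 2 * sq (θ - θ') + 2 * sq θ' := by
  simp only [sq, Finset.mul_sum, ← Finset.sum_add_distrib]
  refine Finset.sum_le_sum fun r _ => ?_
  have h1 : ‖θ r‖ ≤ ‖(θ - θ') r‖ + ‖θ' r‖ := by
    simpa using norm_add_le (θ r - θ' r) (θ' r)
  nlinarith [norm_nonneg (θ r), sq_nonneg (‖(θ - θ') r‖ - ‖θ' r‖)]

theorem bd_sq {cj : Cj H} {Q : Cn n → Mt n} {K' : Set (Cn n)} {F : ℕ → Cn n → H}
    (hF : Sq cj U Q K' F) (hU : IsOpen U) (hK' : IsCompact K') (hKU : K' ⊆ U) (hKK : K ⊆ K') :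
    ∃ B : ℝ, 0 ≤ B ∧ ∀ᶠ i in atTop, ∫ z in K, sq (th (F i) z) ≤ B := by
  obtain ⟨N, hN⟩ := hF.cau 1 one_pos
  have hs : ∀ i, SC U (th (F i)) := fun i => sc_th hU (hF.sm i)
  refine ⟨2 * 1 + 2 * ∫ z in K', sq (th (F N) z), add_nonneg (by norm_num) (mul_nonneg two_pos.le
    (integral_nonneg fun z => sq_nonneg' _)), ?_⟩
  filter_upwards [eventually_ge_atTop N] with i hi
  have i1 := (((hs i).sub (hs N)).int hK' hKU).const_mul 2
  have i2 := ((hs N).int hK' hKU).const_mul 2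
  refine (setIntegral_mono_set ((hs i).int hK' hKU) (Eventually.of_forall fun z => sq_nonneg' _)
    hKK.eventuallyLE).trans ((integral_mono ((hs i).int hK' hKU) (i1.fun_add i2)
      fun z => sq_le_two _ _).trans ?_)
  rw [integral_add i1 i2, integral_const_mul, integral_const_mul]
  linarith [hN i hi N le_rfl]

theorem small {η c : ℝ} (hη : 0 < η) (hc : 0 ≤ c) : ∃ δ : ℝ, 0 < δ ∧ c * δ ≤ η :=
  ⟨η / (c + 1), by positivity, by
    rw [mul_div_assoc', div_le_iff₀ (by positivity)]; nlinarith⟩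

theorem hess_zero (hc : HasCompactSupport φ) {z : Cn n} (hz : z ∉ tsupport φ) : hess φ z = 0 := by
  have h0 : ∀ z ∉ tsupport φ, cu φ z = 0 := fun z hz => by
    simp [cu, image_eq_zero_of_notMem_tsupport hz]
  ext b c
  exact wd_zero_of (ev_zero hc (fun w hw => wd_zero_of (ev_zero hc h0 hw) _) hz) _

/-- smooth approximation of approximate minimisers -/
theorem key {H : Type} [NormedAddCommGroup H] [InnerProductSpace ℂ H] [CompleteSpace H]
    {cj : Cj H} {K' : Set (Cn n)} {F : ℕ → Cn n → H} (hG : KF U G)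
    (ha : DifferentiableOn ℂ a U) (hφ : ContDiff ℝ ∞ φ) (hK' : IsCompact K')
    (hs : tsupport φ ⊆ interior K') (hKU : K' ⊆ U) (hε : 0 < ε)
    (hF : Sq cj U (fun z => Qe (G z) (Cf a z) ε) K' F) : ∃ B : ℝ, 0 ≤ B ∧ ∀ δ : ℝ, 0 < δ →
      ∀ᶠ i in atTop, ∫ z in tsupport φ, sq (th (F i) z) ≤ B ∧ ∃ F' : Cn n → H, ContDiff ℝ ∞ F' ∧
        (∀ z, cj.J (F' z) = F' z) ∧ ∫ z in tsupport φ, sq (th F' z - th (F i) z) ≤ δ ∧
        ∫ z, φ z * na (G z) (Cf a z) ε (Am F' z) ≤ Rs G a ε φ (F i) + δ := by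
  have hs1 : tsupport φ ⊆ K' := hs.trans interior_subset
  have hc : HasCompactSupport φ := hK'.of_isClosed_subset (isClosed_tsupport _) hs1
  have hU := hs1.trans hKU
  obtain ⟨B, hB0, hB⟩ := bd_sq hF hG.opn hK' hKU hs1
  refine ⟨B, hB0, fun δ hδ => ?_⟩
  obtain ⟨m, hm0, hm⟩ := na_le (H := H) hG ha hφ hc hU hε
  have hp : 0 ≤ ε ^ q / ε := by positivity
  obtain ⟨η, hη, hη'⟩ := small (half_pos hδ) hp
  obtain ⟨δ₁, hδ₁, h1⟩ := ip_close (H := H) hc hU
    (X := fun z => Wm (gE (G z) (Cf a z) ε) (hess φ z))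
    (fun z hz => (gE_sm hG ha ε hz).Wm (kf_det (kf_gE hG ha hε) hz) fun b c =>
      contDiffAt_wd (contDiffAt_wd (contDiffAt_cu hφ.contDiffAt) _) _)
    (fun z hz => by rw [hess_zero hc hz, Wm_zero]) hB0 hη
  obtain ⟨δ₂, hδ₂, h2⟩ := small (half_pos hδ) hm0
  filter_upwards [hB, mol n H cj U _ _ K' F hG.opn
    (fun b c z hz => (Qe_sm hG ha ε hz b c).contDiffWithinAt)
    (fun z hz => (Qe_posDef (hG.pos z hz) _ hε).1) (fun z hz p => div_Qe hG ha hε hz p) hc hK' hs
    hKU hF (min δ (min δ₁ δ₂)) (lt_min hδ (lt_min hδ₁ hδ₂))] with i hi ⟨F', hF', hJ, h3, h4⟩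
  refine ⟨hi, F', hF', hJ, h3.trans (min_le_left _ _), (hm F' hF').trans ?_⟩
  have h5 := h1 _ _ (sc_th hG.opn (hF.sm i)) (sc_th hG.opn hF'.contDiffOn) hi
    (h3.trans ((min_le_right _ _).trans (min_le_left _ _)))
  have h6 := mul_le_mul_of_nonneg_left ((Complex.re_le_norm _).trans h5) hp
  have h7 := mul_le_mul_of_nonneg_left (h4.trans ((min_le_right _ _).trans (min_le_right _ _))) hm0
  rw [Complex.sub_re, mul_sub] at h6
  unfold Rs
  linarith

theorem int_en (hφ : ContDiff ℝ ∞ φ) (hc : HasCompactSupport φ) (hU : tsupport φ ⊆ U)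
    {Q : Cn n → Mt n} (hQ : ∀ z ∈ U, SM Q z) {B : ℝ} (hB : 0 ≤ B) {η : ℝ} (hη : 0 < η) :
    ∃ δ : ℝ, 0 < δ ∧ ∀ θ θ' : Cn n → Fin n → H, SC U θ → SC U θ' →
      ∫ z in tsupport φ, sq (θ z) ≤ B → ∫ z in tsupport φ, sq (θ' z - θ z) ≤ δ →
        |(∫ z, φ z * en (Q z) (θ' z)) - ∫ z, φ z * en (Q z) (θ z)| ≤ η := by
  have hX : ∀ z ∈ U, SM (fun w => (φ w : ℂ) • Q w) z := fun z hz b c =>
    (contDiffAt_cu hφ.contDiffAt).mul (hQ z hz b c)
  have h0 : ∀ z ∉ tsupport φ, (φ z : ℂ) • Q z = 0 := fun z hz => by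
    simp [image_eq_zero_of_notMem_tsupport hz]
  obtain ⟨δ, hδ, h⟩ := ip_close (H := H) hc hU hX h0 hB hη
  refine ⟨δ, hδ, fun θ θ' hθ hθ' h1 h2 => ?_⟩
  have e : ∀ θ : Cn n → Fin n → H, SC U θ → ∫ z, φ z * en (Q z) (θ z) =
      (∫ z, ip ((φ z : ℂ) • Q z) (θ z) (θ z)).re := fun θ hθ => by
    have h3 := integral_re (intg_ip hc hU hX h0 hθ)
    simp only [RCLike.re_to_complex] at h3
    rw [← h3]
    exact integral_congr_ae (Eventually.of_forall fun z => (en_smul _ _ _).symm)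
  rw [e θ hθ, e θ' hθ', ← Complex.sub_re]
  exact (Complex.abs_re_le_norm _).trans (h θ θ' hθ hθ' h1 h2)

/-- **FS** -/
theorem fs : FsStmt := by
  intro n q H _ _ _ cj U G a φ K' hG ha hφ h0 hK' hs hKU
  have hs1 : tsupport φ ⊆ K' := hs.trans interior_subset
  have hc : HasCompactSupport φ := hK'.of_isClosed_subset (isClosed_tsupport _) hs1
  have hU := hs1.trans hKU
  refine ⟨fun ε F hε _ hF η hη => ?_, fun χ hχ hsχ => ?_⟩
  · obtain ⟨B, hB0, hB⟩ := key hG ha hφ hK' hs hKU hε hF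
    refine ⟨?_, fun c t κ hc1 ht hκ => ?_⟩
    · filter_upwards [hB η hη] with i ⟨_, F', _, _, _, h⟩
      have : 0 ≤ ∫ z, φ z * na (G z) (Cf a z) ε (Am F' z) :=
        integral_nonneg (na_int_nonneg hG h0 hU hε F')
      linarith
    · have hp : 0 ≤ ε ^ q / ε := by positivity
      obtain ⟨η', hη', h1⟩ := small (c := ε ^ q / ε + t / 2 + (1 / (4 * t) + κ) +
        2 * (((n : ℝ) + 2) / (2 * κ))) hη (by positivity)
      obtain ⟨δ₁, hδ₁, k1⟩ := ip_close (H := H) hc hU
        (X := fun z => Wm (gE (G z) (Cf a z) ε) (d1 (Cf a z *ᵥ c) φ z))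
        (fun z hz => (gE_sm hG ha ε hz).Wm (kf_det (kf_gE hG ha hε) hz) fun d b =>
          (ContDiffAt.sum (s := Finset.univ) (f := fun h w => Cf a w d h * c h) fun h _ =>
            (Cf_sm hG.opn ha hz d h).mul contDiffAt_const).mul
            (contDiffAt_wd (contDiffAt_cu hφ.contDiffAt) _))
        (fun z hz => by
          have e : d1 (Cf a z *ᵥ c) φ z = 0 := by
            ext d b
            rw [d1, Matrix.of_apply, wd_zero_of (ev_zero hc (fun w hw => by
              simp [cu, image_eq_zero_of_notMem_tsupport hw]) hz), mul_zero, Matrix.zero_apply]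
          rw [e, Wm_zero]) hB0 hη'
      obtain ⟨δ₂, hδ₂, k2⟩ := int_en (H := H) hφ hc hU (fun z hz => Qe_sm hG ha ε hz) hB0 hη'
      obtain ⟨δ₃, hδ₃, k3⟩ := int_en (H := H) hφ hc hU (fun z hz => Q0_sm hG ha hz) hB0 hη'
      filter_upwards [hB (min (min η' δ₁) (min δ₂ δ₃)) (lt_min (lt_min hη' hδ₁) (lt_min hδ₂ hδ₃))]
        with i ⟨hi, F', hF', hJ, h3, h4⟩
      have s1 := sc_th hG.opn (hF.sm i)
      have s2 := sc_th hG.opn hF'.contDiffOn
      have l1 := k1 _ _ s1 s2 hi (h3.trans ((min_le_left _ _).trans (min_le_right _ _)))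
      have l2 := abs_le.1 (k2 _ _ s1 s2 hi (h3.trans ((min_le_right _ _).trans (min_le_left _ _))))
      have l3 := abs_le.1 (k3 _ _ s1 s2 hi (h3.trans ((min_le_right _ _).trans (min_le_right _ _))))
      have l4 := h4.trans (add_le_add_right ((min_le_left _ _).trans (min_le_left _ _)) _)
      have l5 := st1 cj hG ha hφ h0 hc hU hε hF' hJ hc1 ht hκ
      have e : ∀ θ : Cn n → Fin n → H, SC U θ →
          ∫ z, φ z * (ee (G z) (Cf a z) ε (θ z) - e0 (G z) (Cf a z) (θ z)) =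
          (∫ z, φ z * ee (G z) (Cf a z) ε (θ z)) - ∫ z, φ z * e0 (G z) (Cf a z) (θ z) := by
        intro θ hθ
        simp only [mul_sub]
        exact integral_sub (intg_phi hφ hc hU fun z hz => ee_sm hG ha ε hz (hθ z hz))
          (intg_phi hφ hc hU fun z hz => e0_sm hG ha hz (hθ z hz))
      rw [e _ s2] at l5
      rw [e _ s1]
      have l6 := mul_le_mul_of_nonneg_left ((norm_sub_norm_le _ _).trans
        ((norm_sub_rev _ _).trans_le l1)) hp
      have l7 := mul_le_mul_of_nonneg_left l2.2 (half_pos ht).le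
      have l8 := mul_le_mul_of_nonneg_left l4 (show 0 ≤ 1 / (4 * t) + κ by positivity)
      have l9 := mul_le_mul_of_nonneg_left l2.2 (show 0 ≤ ((n : ℝ) + 2) / (2 * κ) by positivity)
      have l10 := mul_le_mul_of_nonneg_left l3.1 (show 0 ≤ ((n : ℝ) + 2) / (2 * κ) by positivity)
      unfold ee e0 at l5 ⊢
      linarith
  · obtain ⟨C, hC0, hC⟩ := db1 (H := H) hG ha hφ h0 hc hU hχ hsχ
    obtain ⟨M, hM0, hM⟩ := sl_close (H := H) hc hU hG.opn ha hχ
      fun z hz => subset_tsupport _ (hsχ hz).ne'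
    refine ⟨2 * C, by positivity, fun ε F hε h1 hF η hη => ?_⟩
    obtain ⟨B, -, hB⟩ := key hG ha hφ hK' hs hKU hε hF
    obtain ⟨δ, hδ, h2⟩ := small (c := 2 * C + 2 * M) hη (by positivity)
    filter_upwards [hB δ hδ] with i ⟨_, F', hF', _, h3, h4⟩ b I
    have l1 := (hC ε hε h1 F' hF' b I).trans (mul_le_mul_of_nonneg_left h4 hC0)
    have l2 := (hM _ _ (sc_th hG.opn (hF.sm i)) (sc_th hG.opn hF'.contDiffOn) b I).trans
      (mul_le_mul_of_nonneg_left h3 hM0)
    set x := ∫ z, wd (true, b) (cu χ) z • Sl a (F i) z I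
    set y := ∫ z, wd (true, b) (cu χ) z • Sl a F' z I
    have l3 : ‖x‖ ≤ ‖y‖ + ‖y - x‖ := by simpa using norm_sub_le y (y - x)
    nlinarith [norm_nonneg x, sq_nonneg (‖y‖ - ‖y - x‖)]

end

end Crest.Agent.X261.Fam.Fs
end

-- ▼ part X261/Fam20/D
section

/-!
# X261, package FAM (helper20), file `D`: the weighted energy forms on the quotient covering

* `TT`, `VV`, `AA` : maps with equivariant differential, equivariant maps;
* `QT D M Q` : positive tensor densities, `qt_Q0`, `qt_Qe`;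
* `dQ`, `den_ip`, `BQ`, `qf` : the form `∫ w(a) Q(∂f, ∂g)`;
* `loc0`, `B0L`, `le_e`, `tend_e` : the hypotheses of the abstract minimisation.
-/

set_option autoImplicit false
set_option linter.unusedSectionVars false

open Set Filter Topology MeasureTheory Matrix
open scoped ComplexConjugate ComplexOrder InnerProductSpace ContDiff

namespace Crest.Agent.X261.Fam20

open Crest.Agent.R275.Geo Crest.Agent.R275.Core144 Crest.Agent.R273.UCov_914
open Crest.Agent.R273.Kah_333 Crest.Agent.R275.EDR890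
open Crest.Agent.R273.Fock_243
open Crest.Agent.X261.Fam
open Crest.Agent.X261.Fam77 (hol_rd sm_rd dif_rd wd_tr Cf_tr rd_inv det_Jm_ne cont_Cf cont_vI
  cont_gr cont_inv cont_det cont_Gam Sl_hor p2_smul_left Cf_eq)
open Crest.Agent.X261.Fam79 (BF PF Af QF Loc Cc Cu)
open Crest.Agent.X261.Rel.Act (Rep)

noncomputable section

variable {n q : ℕ} {H : Type*} [NormedAddCommGroup H] [InnerProductSpace ℂ H]

theorem th_add {F F' : Cn n → H} {z : Cn n} (h : DifferentiableAt ℝ F z)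
    (h' : DifferentiableAt ℝ F' z) : th (fun w => F w + F' w) z = th F z + th F' z :=
  funext fun _ => wd_add h h' _

theorem th_smul {F : Cn n → H} {z : Cn n} (c : ℝ) (h : DifferentiableAt ℝ F z) :
    th (fun w => c • F w) z = (c : ℂ) • th F z := by
  funext b
  simp only [← Complex.coe_smul]
  exact wd_const_smul _ h _

theorem th_sub {F F' : Cn n → H} {z : Cn n} (h : DifferentiableAt ℝ F z)
    (h' : DifferentiableAt ℝ F' z) : th (fun w => F w - F' w) z = th F z - th F' z := by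
  have h1 := th_add h (h'.const_smul (-1 : ℝ))
  rw [show (fun w => F w - F' w) = fun w => F w + ((-1 : ℝ) • F') w from
    funext fun w => by simp [sub_eq_add_neg], h1]
  have h2 : th ((-1 : ℝ) • F') z = _ := th_smul (-1) h'
  rw [h2]
  simp [sub_eq_add_neg]

theorem ee_mono {G : Mt n} (hG : G.PosDef) (C : Mr n q) {ε ε' : ℝ} (hε : 0 < ε) (h1 : ε ≤ ε')
    (θ : Fin n → H) : ee G C ε θ ≤ ee G C ε' θ := by
  obtain ⟨N, μ, h⟩ := exists_NF hG C
  rw [h.ee_eq hG hε, h.ee_eq hG (hε.trans_le h1)]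
  refine mul_le_mul (mul_le_mul_of_nonneg_left (Dm_mono hG C hε.le h1) (det_re_pos hG).le)
    (Finset.sum_le_sum fun k _ => mul_le_mul_of_nonneg_right ?_ (sq_nonneg _))
    (Finset.sum_nonneg fun k _ => mul_nonneg (h.wt_pos hε k).le (sq_nonneg _))
    (mul_pos (det_re_pos hG) (Dm_pos hG C (hε.trans_le h1))).le
  have := h.nn k
  unfold wt
  rw [div_le_div_iff₀ (by linarith) (by linarith)]
  nlinarith

theorem ip_Q0 (G : Mt n) (C : Mr n q) (θ θ' : Fin n → H) :
    ip (Q0 G C) θ θ' = p2 G (ac (vI C) θ) (ac (vI C) θ') := by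
  rw [Q0, ip_smul, ip_conj, p2]

theorem Cf_mL (L : Mt q) {a : Cn n → Cn q} {z : Cn n} (ha : DifferentiableAt ℂ a z) :
    Cf (fun w => Fam.mL L (a w)) z = Cf a z * Lᵀ := by
  ext b h
  have h1 : fderiv ℂ (fun w => Fam.mL L (a w)) z = (Fam.mL L).comp (fderiv ℂ a z) :=
    ((Fam.mL L).hasFDerivAt.comp z ha.hasFDerivAt).fderiv
  rw [Cf_eq (a := fun w => Fam.mL L (a w)) ((Fam.mL L).differentiableAt.comp z ha),
    Matrix.mul_apply, h1, ContinuousLinearMap.comp_apply, Fam.mL_apply]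
  exact Finset.sum_congr rfl fun k _ => by rw [Cf_eq ha, Matrix.transpose_apply, mul_comm]

variable {X : Type} [TopologicalSpace X] {A : Atl n X} {G : Type} [Group G]

/-- smooth maps with equivariant differential -/
def TT (D : MonD A G) (M : Subgroup G) (r : Rep M H) : Submodule ℝ (D.cov G → H) where
  carrier := {f | (D.atl G).Sm f ∧ ∀ m : M, ∃ c, ∀ e, f ((m : G) • e) = r.π m (f e) + c}
  add_mem' := by
    rintro f g ⟨h1, h2⟩ ⟨h3, h4⟩
    refine ⟨fun p => (h1 p).add (h3 p), fun m => ?_⟩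
    obtain ⟨c, hc⟩ := h2 m
    obtain ⟨c', hc'⟩ := h4 m
    exact ⟨c + c', fun e => by simp only [Pi.add_apply, hc, hc', map_add]; abel⟩
  zero_mem' := ⟨fun _ => contDiffOn_const, fun _ => ⟨0, fun _ => by simp⟩⟩
  smul_mem' := by
    rintro t f ⟨h1, h2⟩
    refine ⟨fun p => (h1 p).const_smul t, fun m => ?_⟩
    obtain ⟨c, hc⟩ := h2 m
    exact ⟨t • c, fun e => by
      simp only [Pi.smul_apply, hc, smul_add, ← Complex.coe_smul, map_smul]⟩

/-- real equivariant maps -/
def VV (D : MonD A G) (M : Subgroup G) (r : Rep M H) : Submodule ℝ (D.cov G → H) where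
  carrier := {f | Eqv D M r 0 f}
  add_mem' := fun {f g} h h' => ⟨fun p => (h.sm p).add (h'.sm p),
    fun e => by simp only [Pi.add_apply, map_add, h.real, h'.real],
    fun m e => by simp only [Pi.add_apply, h.eqv, h'.eqv, map_add, Pi.zero_apply, add_zero]⟩
  zero_mem' := ⟨fun _ => contDiffOn_const, fun _ => by simp, fun _ _ => by simp⟩
  smul_mem' := fun t f h => ⟨fun p => (h.sm p).const_smul t,
    fun e => by rw [Pi.smul_apply, ← Complex.coe_smul, r.J_real_smul, h.real],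
    fun m e => by
      simp only [Pi.smul_apply, h.eqv, Pi.zero_apply, add_zero, ← Complex.coe_smul, map_smul]⟩

/-- real maps equivariant for the affine action -/
def AA (D : MonD A G) (M : Subgroup G) (r : Rep M H) (b : M → H) : Set (D.cov G → H) :=
  {f | Eqv D M r b f}

variable {D : MonD A G} {M : Subgroup G} {a : D.cov G → Cn q} {r : Rep M H} {b : M → H}
  {f g : D.cov G → H}

theorem mem_TT (h : Eqv D M r b f) : f ∈ TT D M r := ⟨h.sm, fun m => ⟨b m, h.eqv m⟩⟩

theorem af (h0 : ∃ f, Eqv D M r b f) : Af (TT D M r) (VV D M r) (AA D M r b) where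
  le _ h := mem_TT (b := 0) h
  sub _ h := mem_TT h
  ne := h0
  diff f h g h' := ⟨fun p => (h.sm p).sub (h'.sm p),
    fun e => by simp only [Pi.sub_apply, map_sub, h.real, h'.real],
    fun m e => by
      simp only [Pi.sub_apply, h.eqv, h'.eqv, map_sub, Pi.zero_apply, add_zero]; abel⟩
  add f h u h' := ⟨fun p => (h.sm p).add (Eqv.sm h' p),
    fun e => by simp only [Pi.add_apply, map_add, h.real, Eqv.real h'],
    fun m e => by
      simp only [Pi.add_apply, h.eqv, Eqv.eqv h', map_add, Pi.zero_apply, add_zero]; abel⟩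

theorem th_tr (hf : (D.atl G).Sm f) {i j : A.ι} (v : G) {x : X}
    (hx : x ∈ (A.e i).source ∩ (A.e j).source) : th (Fam.rd D f i v) (A.e i x) =
      ac (Jm A i j x)ᵀ (th (Fam.rd D f j (D.c i j x * v)) (A.e j x)) :=
  funext fun b => wd_tr hx (dif_rd hf j _ ((A.e j).map_source hx.2)) b

theorem th_eqv (hf : f ∈ TT D M r) (m : M) (i : A.ι) (v : G) {z : Cn n}
    (hz : z ∈ (A.e i).target) : th (Fam.rd D f i (v * (m : G)⁻¹)) z =
      fun b => (r.π m).toLinearIsometry (th (Fam.rd D f i v) z b) := by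
  obtain ⟨c, hc⟩ := hf.2 m
  have h1 : Fam.rd D f i (v * (m : G)⁻¹) = fun w =>
      (r.π m).toContinuousLinearEquiv.toContinuousLinearMap (Fam.rd D f i v w) + c := by
    funext w
    rw [Fam77.rd_deck, hc]
    rfl
  have h2 := dif_rd hf.1 i v hz
  funext b
  have h4 : DifferentiableAt ℝ (fun w =>
      (r.π m).toContinuousLinearEquiv.toContinuousLinearMap (Fam.rd D f i v w)) z :=
    ((r.π m).toContinuousLinearEquiv.toContinuousLinearMap.restrictScalars
      ℝ).differentiableAt.comp z h2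
  rw [th, h1, wd_add h4 (differentiableAt_const c), wd_const, add_zero, wd_clm h2]
  rfl

theorem cont_th (hf : (D.atl G).Sm f) (i : A.ι) (v : G) (c : Fin n) :
    ContinuousOn (fun z => th (Fam.rd D f i v) z c) (A.e i).target :=
  (contDiffOn_wd (A.e i).open_target (sm_rd hf i v) (false, c)).continuousOn

/-- positive invariant tensor densities -/
structure QT (D : MonD A G) (M : Subgroup G) (Q : A.ι → G → Cn n → Mt n) : Prop where
  law : ∀ i j v, ∀ x ∈ (A.e i).source ∩ (A.e j).source,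
    ((Jm A i j x)ᵀ)ᴴ * Q i v (A.e i x) * (Jm A i j x)ᵀ =
      ((‖(Jm A i j x).det‖ ^ 2 : ℝ) : ℂ) • Q j (D.c i j x * v) (A.e j x)
  inv : ∀ m ∈ M, ∀ i v, ∀ z ∈ (A.e i).target, Q i (v * m⁻¹) z = Q i v z
  cont : ∀ i v, ContinuousOn (Q i v) (A.e i).target
  psd : ∀ i v, ∀ z ∈ (A.e i).target, (Q i v z).PosSemidef

/-- the tensor of the vertical energy -/
def Q0f (D : MonD A G) (K : Kah A) (a : D.cov G → Cn q) (i : A.ι) (v : G) (z : Cn n) : Mt n :=
  Q0 (K.g i ((A.e i).symm z)) (Cf (Fam.rd D a i v) z)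

/-- the tensor of the approximate energy -/
def Qef (D : MonD A G) (K : Kah A) (a : D.cov G → Cn q) (ε : ℝ) (i : A.ι) (v : G) (z : Cn n) :
    Mt n := Qe (K.g i ((A.e i).symm z)) (Cf (Fam.rd D a i v) z) ε

/-- the map `L ∘ a` -/
abbrev aM (L : Mt q) (a : D.cov G → Cn q) : D.cov G → Cn q := fun e => Fam.mL L (a e)

theorem Cf_aM (hd : Dat D M a) (L : Mt q) (i : A.ι) (v : G) {z : Cn n} (hz : z ∈ (A.e i).target) :
    Cf (Fam.rd D (aM L a) i v) z = Cf (Fam.rd D a i v) z * Lᵀ :=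
  Cf_mL L ((hol_rd hd i v).differentiableAt ((A.e i).open_target.mem_nhds hz))

theorem qt_Q0 (K : Kah A) (hd : Dat D M a) : QT D M (Q0f D K a) := by
  refine ⟨fun i j v x hx => ?_, fun m hm i v z _ => ?_, fun i v => ?_, fun i v z hz => ?_⟩
  · have h1 : K.g i x = (Jm A i j x)ᵀ * K.g j x * ((Jm A i j x)ᵀ)ᴴ := K.tr i j x hx
    rw [Q0f, Q0f, (A.e i).left_inv hx.1, (A.e j).left_inv hx.2, h1, Cf_tr hd v hx,
      Q0_conj (det_Jm_ne K hx), Matrix.det_transpose]
  · rw [Q0f, Q0f, rd_inv hd hm]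
  · have h1 : ContinuousOn (fun z => vI (Cf (Fam.rd D a i v) z)) (A.e i).target :=
      continuousOn_pi.2 fun I => continuousOn_pi.2 fun c =>
        (cont_vI I c).comp_continuousOn (cont_Cf (A.e i).open_target (hol_rd hd i v))
    have h2 : ContinuousOn (fun z => Gam (K.g i ((A.e i).symm z))⁻¹) (A.e i).target :=
      continuousOn_pi.2 fun I => continuousOn_pi.2 fun J =>
        (cont_Gam I J).comp_continuousOn (cont_inv K i)
    have h3 : Continuous fun p : ℂ × Matrix (FI n) (Fin n) ℂ × Matrix (FI n) (FI n) ℂ =>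
        p.1 • (p.2.1ᴴ * p.2.2 * p.2.1) :=
      continuous_fst.smul ((continuous_snd.fst.matrix_conjTranspose.matrix_mul
        continuous_snd.snd).matrix_mul continuous_snd.fst)
    have h4 := h3.comp_continuousOn ((cont_det K i).prodMk (h1.prodMk h2))
    exact h4.congr fun z _ => rfl
  · exact Q0_psd (K.pos i _ ((A.e i).map_target hz)) _

theorem qt_Qe (K : Kah A) (hd : Dat D M a) (L : Mt q) {ε : ℝ} (hε : 0 < ε) :
    QT D M (Qef D K (aM L a) ε) := by
  refine ⟨fun i j v x hx => ?_, fun m hm i v z hz => ?_, fun i v => ?_, fun i v z hz => ?_⟩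
  · have h1 : K.g i x = (Jm A i j x)ᵀ * K.g j x * ((Jm A i j x)ᵀ)ᴴ := K.tr i j x hx
    rw [Qef, Qef, Cf_aM hd L i v ((A.e i).map_source hx.1),
      Cf_aM hd L j _ ((A.e j).map_source hx.2), (A.e i).left_inv hx.1, (A.e j).left_inv hx.2, h1,
      Cf_tr hd v hx, Matrix.mul_assoc (Jm A i j x)ᵀ _ Lᵀ, Qe_conj, Matrix.det_transpose]
  · rw [Qef, Qef, Cf_aM hd L i _ hz, Cf_aM hd L i _ hz, rd_inv hd hm]
  · have h3 : Continuous fun p : Mt n × Mr n q => Qe p.1 (p.2 * Lᵀ) ε := by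
      have h4 : Continuous fun p : Mt n × Mr n q => p.2 * Lᵀ :=
        continuous_snd.matrix_mul continuous_const
      exact (continuous_fst.add ((h4.matrix_mul h4.matrix_conjTranspose).const_smul
        ((ε⁻¹ : ℝ) : ℂ))).matrix_adjugate.const_smul ((ε ^ q : ℝ) : ℂ)
    refine (h3.comp_continuousOn ((cont_gr K i).prodMk
      (cont_Cf (A.e i).open_target (hol_rd hd i v)))).congr fun z hz => ?_
    rw [Qef, Cf_aM hd L i v hz]
    rfl
  · exact (Qe_posDef (K.pos i _ ((A.e i).map_target hz)) _ hε).posSemidef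



/-- the density `w(a) Q(∂f, ∂g)` -/
def dQ (D : MonD A G) (a : D.cov G → Cn q) (Q : A.ι → G → Cn n → Mt n) (w : Cn q → ℝ)
    (f g : D.cov G → H) (i : A.ι) (v : G) (z : Cn n) : ℂ :=
  ((w (Fam.rd D a i v z) : ℝ) : ℂ) * ip (Q i v z) (th (Fam.rd D f i v) z) (th (Fam.rd D g i v) z)

variable {Q : A.ι → G → Cn n → Mt n} {w : Cn q → ℝ}

theorem den_ip (hd : Dat D M a) (hQ : QT D M Q) (hw : Continuous w) {R : ℝ}
    (hs : ∀ y, R < ‖y‖ → w y = 0) (hf : f ∈ TT D M r) (hg : g ∈ TT D M r) :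
    Den D M a R (dQ D a Q w f g) := by
  refine ⟨fun i j v x hx => ?_, fun m hm i v z hz => ?_, fun i v => ?_, fun i v z _ h1 => ?_⟩
  · rw [dQ, dQ, rd_pt D a v hx.1, rd_pt D a _ hx.2, th_tr hf.1 v hx, th_tr hg.1 v hx, ← ip_conj,
      hQ.law i j v x hx, ip_smul, D.pt_eq v hx.1 hx.2, mul_left_comm]
    rfl
  · rw [dQ, dQ, rd_inv hd hm, th_eqv hf ⟨m, hm⟩ i v hz, th_eqv hg ⟨m, hm⟩ i v hz, ip_iso,
      hQ.inv m hm i v z hz]
  · refine (Complex.continuous_ofReal.comp_continuousOn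
      (hw.comp_continuousOn (hol_rd hd i v).continuousOn)).mul ?_
    simp only [ip_eq]
    exact continuousOn_finsetSum _ fun c _ => continuousOn_finsetSum _ fun d _ =>
      (continuousOn_pi.1 (continuousOn_pi.1 (hQ.cont i v) c) d).mul
        ((cont_th hf.1 i v c).inner (cont_th hg.1 i v d))
  · rw [dQ, hs _ h1, Complex.ofReal_zero, zero_mul]

theorem exists_rad (hw : HasCompactSupport w) : ∃ R : ℝ, ∀ y, R < ‖y‖ → w y = 0 := by
  obtain ⟨R, hR⟩ := hw.isCompact.isBounded.subset_closedBall 0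
  refine ⟨R, fun y hy => image_eq_zero_of_notMem_tsupport fun h => ?_⟩
  have := hR h
  rw [mem_closedBall_zero_iff] at this
  linarith

theorem exists_rad2 {w' : Cn q → ℝ} (hw : HasCompactSupport w) (hw' : HasCompactSupport w') :
    ∃ R : ℝ, (∀ y, R < ‖y‖ → w y = 0) ∧ ∀ y, R < ‖y‖ → w' y = 0 := by
  obtain ⟨R, hR⟩ := exists_rad hw
  obtain ⟨R', hR'⟩ := exists_rad hw'
  exact ⟨max R R', fun y hy => hR y ((le_max_left _ _).trans_lt hy),
    fun y hy => hR' y ((le_max_right _ _).trans_lt hy)⟩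

theorem re_dQ (i : A.ι) (v : G) (z : Cn n) : (dQ D a Q w f g i v z).re = w (Fam.rd D a i v z) *
    (ip (Q i v z) (th (Fam.rd D f i v) z) (th (Fam.rd D g i v) z)).re := by
  rw [dQ, Complex.re_ofReal_mul]

theorem dQ_self (hQ : QT D M Q) {i : A.ι} (v : G) {z : Cn n} (hz : z ∈ (A.e i).target) :
    dQ D a Q w f f i v z =
      ((w (Fam.rd D a i v z) * en (Q i v z) (th (Fam.rd D f i v) z) : ℝ) : ℂ) := by
  rw [dQ, ip_real (hQ.psd i v z hz).1, Complex.ofReal_mul]

theorem th_rd_sub (hf : (D.atl G).Sm f) (hg : (D.atl G).Sm g) {i : A.ι} (v : G) {z : Cn n}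
    (hz : z ∈ (A.e i).target) :
    th (Fam.rd D (f - g) i v) z = th (Fam.rd D f i v) z - th (Fam.rd D g i v) z :=
  th_sub (dif_rd hf i v hz) (dif_rd hg i v hz)

variable [Finite A.ι] [Countable G] [T2Space X]

/-- the form `re ∫ w(a) Q(∂f, ∂g)` -/
def BQ (D : MonD A G) (K : Kah A) (M : Subgroup G) (a : D.cov G → Cn q)
    (Q : A.ι → G → Cn n → Mt n) (w : Cn q → ℝ) (f g : D.cov G → H) : ℝ :=
  (IM D K M (dQ D a Q w f g)).re

variable (K : Kah A)

theorem re_IM_congr (hd : Dat D M a) {R : ℝ} {Φ Ψ : A.ι → G → Cn n → ℂ} (h : Den D M a R Φ)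
    (h' : Den D M a R Ψ) (e : ∀ i v, ∀ z ∈ (A.e i).target, (Φ i v z).re = (Ψ i v z).re) :
    (IM D K M Φ).re = (IM D K M Ψ).re :=
  le_antisymm (re_IM_mono K hd h h' fun i v z hz => (e i v z hz).le)
    (re_IM_mono K hd h' h fun i v z hz => (e i v z hz).ge)

theorem BQ_self (hQ : QT D M Q) : BQ D K M a Q w f f = (IM D K M fun i v z =>
    ((w (Fam.rd D a i v z) * en (Q i v z) (th (Fam.rd D f i v) z) : ℝ) : ℂ)).re := by
  rw [BQ, IM_congr K fun i v z hz => dQ_self hQ v hz]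

theorem qf (hd : Dat D M a) (hQ : QT D M Q) : QF (TT D M r) (BQ D K M a Q) := by
  refine ⟨fun w hw => ?_, fun w w' hw hw' f hf g hg => ?_, fun w _ c f _ g _ => ?_,
    fun w hw h0 f hf => ?_⟩
  · obtain ⟨R, hR⟩ := exists_rad hw.2
    refine ⟨fun f hf g hg => ?_, fun f hf g hg h hh => ?_, fun c f hf h _ => ?_⟩
    · refine re_IM_congr K hd (den_ip hd hQ hw.1 hR hf hg) (den_ip hd hQ hw.1 hR hg hf)
        fun i v z hz => ?_
      rw [re_dQ, re_dQ, re_ip_comm (hQ.psd i v z hz).1]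
    · rw [BQ, BQ, BQ, ← Complex.add_re, ← IM_add K hd (den_ip hd hQ hw.1 hR hf hh)
        (den_ip hd hQ hw.1 hR hg hh)]
      congr 1
      refine IM_congr K fun i v z hz => ?_
      have h1 : th (Fam.rd D (f + g) i v) z = th (Fam.rd D f i v) z + th (Fam.rd D g i v) z :=
        th_add (dif_rd hf.1 i v hz) (dif_rd hg.1 i v hz)
      rw [dQ, dQ, dQ, h1, ip_add_left, mul_add]
    · rw [BQ, BQ, ← Complex.re_ofReal_mul, ← IM_smul]
      congr 1
      refine IM_congr K fun i v z hz => ?_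
      have h1 : th (Fam.rd D (c • f) i v) z = (c : ℂ) • th (Fam.rd D f i v) z :=
        th_smul c (dif_rd hf.1 i v hz)
      rw [dQ, dQ, h1, ip_smul_left, Complex.conj_ofReal, mul_left_comm]
  · obtain ⟨R, hR, hR'⟩ := exists_rad2 hw.2 hw'.2
    rw [BQ, BQ, BQ, ← Complex.add_re, ← IM_add K hd (den_ip hd hQ hw.1 hR hf hg)
      (den_ip hd hQ hw'.1 hR' hf hg)]
    congr 1
    refine IM_congr K fun i v z _ => ?_
    rw [dQ, dQ, dQ, Complex.ofReal_add, add_mul]
  · rw [BQ, BQ, ← Complex.re_ofReal_mul, ← IM_smul]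
    congr 1
    refine IM_congr K fun i v z _ => ?_
    rw [dQ, dQ, Complex.ofReal_mul, mul_assoc]
  · obtain ⟨R, hR⟩ := exists_rad hw.2
    refine re_IM_nonneg K hd (den_ip hd hQ hw.1 hR hf hf) fun i v z hz => ?_
    rw [re_dQ]
    exact mul_nonneg (h0 _) (en_nonneg (hQ.psd i v z hz) _)

theorem sm_a (hd : Dat D M a) (i : A.ι) (v : G) :
    ContDiffOn ℝ ∞ (Fam.rd D a i v) (A.e i).target :=
  ((R266.SCV.analyticOnNhd_of_differentiableOn (A.e i).open_target
    (hol_rd hd i v)).contDiffOn_of_completeSpace).restrict_scalars ℝ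

theorem eqv_mul (hd : Dat D M a) {χ : Cn q → ℝ} (hχ : ContDiff ℝ ∞ χ) {u : D.cov G → H}
    (hu : Eqv D M r 0 u) : Eqv D M r 0 fun e => ((χ (a e) : ℝ) : ℂ) • u e :=
  ⟨fun p => ((Complex.ofRealCLM.contDiff.comp hχ).comp_contDiffOn (sm_a hd p.1 p.2)).smul (hu.sm p),
    fun e => by rw [r.J_real_smul, hu.real],
    fun m e => by simp only [hd.inv m m.2, hu.eqv, Pi.zero_apply, add_zero, map_smul]⟩

/-- localisation for the vertical energy -/
theorem loc0 (hd : Dat D M a) : Loc (TT D M r) (VV D M r) (BQ D K M a (Q0f D K a)) := by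
  intro χ hχ u hu
  refine ⟨_, eqv_mul hd hχ.sm hu, fun w _ g _ => ?_⟩
  unfold BQ
  congr 1
  refine IM_congr K fun i v z hz => ?_
  have h1 := Sl_hor (χ := fun y => ((χ y : ℝ) : ℂ))
    ((hol_rd hd i v).differentiableAt ((A.e i).open_target.mem_nhds hz))
    (dif_rd (Eqv.sm hu) i v hz)
    (((Complex.ofRealCLM.contDiff.comp hχ.sm).differentiable (by simp)) _)
  rw [dQ, dQ, Q0f, ip_Q0, ip_Q0, Complex.ofReal_mul, mul_assoc,
    ← p2_smul_left _ (χ (Fam.rd D a i v z))]
  congr 2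

theorem Q0f_aM (hd : Dat D M a) (L : Mt q) {i : A.ι} (v : G) {z : Cn n}
    (hz : z ∈ (A.e i).target) :
    Q0f D K (aM L a) i v z = ((‖L.det‖ ^ 2 : ℝ) : ℂ) • Q0f D K a i v z := by
  rw [Q0f, Q0f, Cf_aM hd L i v hz, Q0_mul_right, Matrix.det_transpose]

theorem qt_Q0L (hd : Dat D M a) (L : Mt q) : QT D M (Q0f D K (aM L a)) := by
  have h := qt_Q0 K hd
  refine ⟨fun i j v x hx => ?_, fun m hm i v z hz => ?_, fun i v => ?_, fun i v z hz => ?_⟩
  · rw [Q0f_aM K hd L v ((A.e i).map_source hx.1), Q0f_aM K hd L _ ((A.e j).map_source hx.2),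
      Matrix.mul_smul, Matrix.smul_mul, h.law i j v x hx, smul_comm]
  · rw [Q0f_aM K hd L _ hz, Q0f_aM K hd L _ hz, h.inv m hm i v z hz]
  · exact ((h.cont i v).const_smul ((‖L.det‖ ^ 2 : ℝ) : ℂ)).congr fun z hz => Q0f_aM K hd L v hz
  · exact Q0_psd (K.pos i _ ((A.e i).map_target hz)) _

theorem B0L (hd : Dat D M a) (L : Mt q) :
    BQ D K M a (Q0f D K (aM L a)) w f g = ‖L.det‖ ^ 2 * BQ D K M a (Q0f D K a) w f g := by
  rw [BQ, BQ, ← Complex.re_ofReal_mul, ← IM_smul]
  congr 1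
  refine IM_congr K fun i v z hz => ?_
  rw [dQ, dQ, Q0f_aM K hd L v hz, ip_smul, mul_left_comm]

theorem le_e (hd : Dat D M a) (L : Mt q) {ε : ℝ} (hε : 0 < ε) (hw : Cc w) (h0 : ∀ y, 0 ≤ w y)
    (hf : f ∈ TT D M r) :
    ‖L.det‖ ^ 2 * BQ D K M a (Q0f D K a) w f f ≤ BQ D K M a (Qef D K (aM L a) ε) w f f := by
  obtain ⟨R, hR⟩ := exists_rad hw.2
  rw [← B0L K hd]
  refine re_IM_mono K hd (den_ip hd (qt_Q0L K hd L) hw.1 hR hf hf)
    (den_ip hd (qt_Qe K hd L hε) hw.1 hR hf hf) fun i v z hz => ?_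
  rw [re_dQ, re_dQ]
  exact mul_le_mul_of_nonneg_left (e0_le_ee (K.pos i _ ((A.e i).map_target hz)) _ hε _) (h0 _)

theorem tend_e (hd : Dat D M a) (L : Mt q) (hw : Cc w) (h0 : ∀ y, 0 ≤ w y) (hf : f ∈ TT D M r) :
    Tendsto (fun ε => BQ D K M a (Qef D K (aM L a) ε) w f f) (𝓝[>] 0)
      (𝓝 (‖L.det‖ ^ 2 * BQ D K M a (Q0f D K a) w f f)) := by
  obtain ⟨R, hR⟩ := exists_rad hw.2
  rw [← B0L K hd]
  have hI : ∀ᶠ ε : ℝ in 𝓝[>] 0, ε ∈ Ioc (0 : ℝ) 1 := Ioc_mem_nhdsGT one_pos
  refine (Complex.continuous_re.tendsto _).comp (tendsto_IM K hd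
    (hI.mono fun ε hε => den_ip hd (qt_Qe K hd L hε.1) hw.1 hR hf hf)
    (den_ip hd (qt_Qe K hd L one_pos) hw.1 hR hf hf) (hI.mono fun ε hε i v z hz => ?_)
    fun i v z hz => ?_)
  · have hG := K.pos i _ ((A.e i).map_target hz)
    rw [dQ_self (qt_Qe K hd L hε.1) v hz, re_dQ, Complex.norm_real,
      Real.norm_of_nonneg (mul_nonneg (h0 _) (en_nonneg ((qt_Qe K hd L hε.1).psd i v z hz) _))]
    exact mul_le_mul_of_nonneg_left (ee_mono hG _ hε.1 hε.2 _) (h0 _)
  · have hG := K.pos i _ ((A.e i).map_target hz)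
    rw [dQ_self (qt_Q0L K hd L) v hz]
    refine ((Complex.continuous_ofReal.tendsto _).comp ((tendsto_ee hG
      (Cf (Fam.rd D (aM L a) i v) z) (th (Fam.rd D f i v) z)).const_mul
      (w (Fam.rd D a i v z)))).congr' (hI.mono fun ε hε => ?_)
    exact (dQ_self (qt_Qe K hd L hε.1) v hz).symm

end

end Crest.Agent.X261.Fam20
end

-- ▼ part X261/Fam84/Eqv
section

/-!
# X261 / FAM (helper84): existence of smooth real equivariant maps
-/

set_option autoImplicit false
set_option linter.unusedSectionVars false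

noncomputable section

open Set Filter Topology
open scoped ContDiff

namespace Crest.Agent.X261.Fam84

open Crest.Agent.R275.Geo Crest.Agent.R273.UCov_914 Crest.Agent.X261.Fam
open Crest.Agent.X261.Rel.Act (Rep Act)

variable {n : ℕ} {X : Type} [TopologicalSpace X] {A : Atl n X} {G : Type} [Group G]
variable {H : Type*} [NormedAddCommGroup H] [InnerProductSpace ℂ H]

/-- the `M`-component of `v⁻¹` -/
def mm (M : Subgroup G) (v : G) : M :=
  ⟨v⁻¹ * (v : G ⧸ M).out, QuotientGroup.eq.1 (QuotientGroup.out_eq' (v : G ⧸ M)).symm⟩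

theorem mm_mul (M : Subgroup G) (v : G) (m : M) : mm M (v * (m : G)⁻¹) = m * mm M v := by
  have h : ((v * (m : G)⁻¹ : G) : G ⧸ M) = v := QuotientGroup.mk_mul_of_mem v (M.inv_mem m.2)
  apply Subtype.ext
  simp only [mm, h, mul_inv_rev, inv_inv, Subgroup.coe_mul, mul_assoc]

theorem sm_psi (P : Part A) (D : MonD A G) (i : A.ι) (c : G → H) :
    (D.atl G).Sm fun e => P.ψ i (D.pr e) • c (D.co i e) := by
  rintro ⟨j, v⟩ z hz
  have hz' : z ∈ (A.e j).target := hz
  have h0 := (A.e j).open_target.mem_nhds hz'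
  have h1 : ContinuousAt (A.e j).symm z := (A.e j).symm.continuousAt hz'
  refine ContDiffAt.contDiffWithinAt ?_
  change ContDiffAt ℝ ∞ (fun z => P.ψ i ((A.e j).symm z) •
    c (D.co i (D.pt j v ((A.e j).symm z)))) z
  by_cases hi : (A.e j).symm z ∈ (A.e i).source
  · have h2 : ContinuousAt (fun z => D.pt j v ((A.e j).symm z)) z :=
      ((D.continuousOn_pt j v).continuousAt
        ((A.e j).open_source.mem_nhds ((A.e j).map_target hz'))).comp h1
    refine (((P.ψ_sm i j).contDiffAt h0).smul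
      (contDiffAt_const (c := c (D.co i (D.pt j v ((A.e j).symm z)))))).congr_of_eventuallyEq ?_
    filter_upwards [h2.eventually (D.co_eventually (i := i) (e := D.pt j v ((A.e j).symm z)) hi)]
      with w hw
    rw [hw.2]; rfl
  · have h2 : (A.e j).symm z ∉ tsupport (P.ψ i) := fun h => hi (P.χ_sub i (subset_tsupport _ (by
      rw [Function.mem_support, (P.χ_one i _ h).self_of_nhds]; exact one_ne_zero)))
    refine (contDiffAt_const (c := (0 : H))).congr_of_eventuallyEq ?_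
    filter_upwards [h1.eventually (notMem_tsupport_iff_eventuallyEq.1 h2)] with w hw
    rw [hw, Pi.zero_apply, zero_smul]

/-- smooth real equivariant maps exist -/
theorem exists_eqv [Finite A.ι] (P : Part A) (D : MonD A G) (M : Subgroup G) (α : Act M H) :
    ∃ f, Eqv D M α.toRep α.b f := by
  have := Fintype.ofFinite A.ι
  refine ⟨fun e => ∑ i, P.ψ i (D.pr e) • α.b (mm M (D.co i e)), fun p => ?_, fun e => ?_,
    fun m e => ?_⟩
  · exact ContDiffOn.sum fun i _ => sm_psi P D i (fun v => α.b (mm M v)) p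
  · rw [map_sum]
    refine Finset.sum_congr rfl fun i _ => ?_
    rw [← Complex.coe_smul, α.toRep.J_real_smul, α.Jb]
  · have h1 : ∑ i, P.ψ i (D.pr e) = 1 := by rw [← finsum_eq_sum_of_fintype, P.sum_one]
    simp only [D.pr_deck, D.co_deck, mm_mul, α.coc, smul_add, Finset.sum_add_distrib]
    rw [← Finset.sum_smul, h1, one_smul, add_comm, map_sum]
    congr 1
    refine Finset.sum_congr rfl fun i _ => ?_
    rw [← Complex.coe_smul, ← Complex.coe_smul, map_smul]

end Crest.Agent.X261.Fam84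
end
end

-- ▼ part X261/Fam1/Tst
section

/-!
# Row 261, package FAM, part TESTS (helper1): equivariant extension of a test map

* `ex0 A i u` : extension by zero of a map on a chart;
* `ext D r i v u` : the `M`-equivariant map which is `u` on the sheet `(i, v)` and vanishes off the
  translates of that sheet;
* `IM_one` : the integral of a density living on one sheet modulo `M`.
-/

set_option autoImplicit false
set_option linter.unusedSectionVars false

open Set Filter Topology MeasureTheory Matrix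
open scoped ComplexConjugate ComplexOrder InnerProductSpace ContDiff

namespace Crest.Agent.X261.Fam1

open Crest.Agent.R275.Geo hiding rd
open Crest.Agent.R275.EDR890 Crest.Agent.R273.UCov_914
open Crest.Agent.R273.Kah_333
open Crest.Agent.X261.Fam Crest.Agent.X261.Cov.B
open Crest.Agent.X261.Rel.Act (Rep Act)

noncomputable section

variable {n q : ℕ} {X : Type} [TopologicalSpace X] {A : Atl n X} {G : Type} [Group G]

section ex0

variable {W : Type*} [NormedAddCommGroup W] [NormedSpace ℝ W]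

/-- extension by zero -/
def ex0 (A : Atl n X) (i : A.ι) (u : Cn n → W) : X → W :=
  (A.e i).source.indicator fun x => u (A.e i x)

theorem ex0_of_mem {i : A.ι} (u : Cn n → W) {x : X} (hx : x ∈ (A.e i).source) :
    ex0 A i u x = u (A.e i x) := indicator_of_mem hx _

theorem ex0_of_notMem {i : A.ι} (u : Cn n → W) {x : X} (hx : x ∉ (A.e i).source) :
    ex0 A i u x = 0 := indicator_of_notMem hx _

theorem ex0_symm {i : A.ι} (u : Cn n → W) {z : Cn n} (hz : z ∈ (A.e i).target) :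
    ex0 A i u ((A.e i).symm z) = u z := by
  rw [ex0_of_mem u ((A.e i).map_target hz), (A.e i).right_inv hz]

variable [T2Space X] {i : A.ι} {u : Cn n → W}

/-- off the image of the support the extension vanishes near the point -/
theorem ex0_ev (hc : HasCompactSupport u) (hs : tsupport u ⊆ (A.e i).target) {x : X}
    (hx : x ∉ (A.e i).symm '' tsupport u) : ex0 A i u =ᶠ[𝓝 x] fun _ => 0 := by
  have hK : IsCompact ((A.e i).symm '' tsupport u) :=
    hc.isCompact.image_of_continuousOn ((A.e i).continuousOn_symm.mono hs)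
  filter_upwards [hK.isClosed.isOpen_compl.mem_nhds hx] with y hy
  by_cases h : y ∈ (A.e i).source
  · rw [ex0_of_mem u h]
    by_contra h0
    exact hy ⟨_, subset_tsupport _ h0, (A.e i).left_inv h⟩
  · exact ex0_of_notMem u h

theorem ex0_ev' (hc : HasCompactSupport u) (hs : tsupport u ⊆ (A.e i).target) {x : X}
    (hx : x ∉ (A.e i).source) : ex0 A i u =ᶠ[𝓝 x] fun _ => 0 :=
  ex0_ev hc hs fun ⟨_, hz, h⟩ => hx (h ▸ (A.e i).map_target (hs hz))

theorem sm_ex0 (hu : ContDiff ℝ ∞ u) (hc : HasCompactSupport u)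
    (hs : tsupport u ⊆ (A.e i).target) : A.Sm (ex0 A i u) := by
  intro j z hz
  have hcz : ContinuousAt (A.e j).symm z := (A.e j).continuousAt_symm hz
  by_cases h : (A.e j).symm z ∈ (A.e i).source
  · have ho : IsOpen {z | z ∈ (A.e j).target ∧ (A.e j).symm z ∈ (A.e i).source} :=
      (A.e j).isOpen_inter_preimage_symm (A.e i).open_source
    have h1 : ContDiffAt ℝ ∞ (fun z => A.e i ((A.e j).symm z)) z :=
      (Crest.Agent.R275.GC293.contDiffOn_change A j i).contDiffAt (ho.mem_nhds ⟨hz, h⟩)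
    refine ((hu.contDiffAt.comp z h1).congr_of_eventuallyEq ?_).contDiffWithinAt
    filter_upwards [ho.mem_nhds ⟨hz, h⟩] with w hw
    exact ex0_of_mem u hw.2
  · exact (contDiffAt_const.congr_of_eventuallyEq
      (hcz.eventually (ex0_ev' hc hs h))).contDiffWithinAt

end ex0

variable {H : Type*} [NormedAddCommGroup H] [InnerProductSpace ℂ H]
variable {M : Subgroup G}

open Classical in
/-- the operator attached to a sheet -/
def op (r : Rep M H) (v w : G) : H →L[ℂ] H :=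
  if h : w⁻¹ * v ∈ M then (r.π ⟨w⁻¹ * v, h⟩).toContinuousLinearEquiv else 0

theorem op_of_mem (r : Rep M H) {v w : G} (h : w⁻¹ * v ∈ M) (x : H) :
    op r v w x = r.π ⟨w⁻¹ * v, h⟩ x := by
  rw [op, dif_pos h]; rfl

theorem op_of_notMem (r : Rep M H) {v w : G} (h : w⁻¹ * v ∉ M) : op r v w = 0 := by
  rw [op, dif_neg h]

theorem op_self (r : Rep M H) (v : G) (x : H) : op r v v x = x := by
  have h : v⁻¹ * v ∈ M := by rw [inv_mul_cancel]; exact M.one_mem
  have h1 : (⟨v⁻¹ * v, h⟩ : M) = 1 := Subtype.ext (inv_mul_cancel v)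
  rw [op_of_mem r h, h1, map_one]; rfl

theorem op_mul (r : Rep M H) (v w : G) (m : M) (x : H) :
    op r v (w * (m : G)⁻¹) x = r.π m (op r v w x) := by
  have e : (w * (m : G)⁻¹)⁻¹ * v = m * (w⁻¹ * v) := by group
  by_cases h : w⁻¹ * v ∈ M
  · have h' : (w * (m : G)⁻¹)⁻¹ * v ∈ M := e ▸ M.mul_mem m.2 h
    have h1 : (⟨_, h'⟩ : M) = m * ⟨_, h⟩ := Subtype.ext e
    rw [op_of_mem r h', op_of_mem r h, h1, map_mul]; rfl
  · have h' : (w * (m : G)⁻¹)⁻¹ * v ∉ M := fun h1 => h ((M.mul_mem_cancel_left m.2).1 (e ▸ h1))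
    rw [op_of_notMem r h', op_of_notMem r h]
    simp

theorem J_op (r : Rep M H) (v w : G) (x : H) : r.J (op r v w x) = op r v w (r.J x) := by
  by_cases h : w⁻¹ * v ∈ M
  · rw [op_of_mem r h, op_of_mem r h, r.Jπ]
  · rw [op_of_notMem r h]; simp


/-- the equivariant extension of a test map -/
def ext (D : MonD A G) (r : Rep M H) (i : A.ι) (v : G) (u : Cn n → H) (e : D.cov G) : H :=
  op r v (D.co i e) (ex0 A i u (D.pr e))

variable (D : MonD A G) (r : Rep M H) {i : A.ι} (v : G) {u : Cn n → H}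

theorem ext_pt (u : Cn n → H) (j : A.ι) (w : G) {x : X} (hx : x ∈ (A.e j).source) :
    ext D r i v u (D.pt j w x) = op r v (cst D j i * w) (ex0 A i u x) := by
  rw [ext, D.pr_pt]
  by_cases h : x ∈ (A.e i).source
  · rw [D.co_pt' w hx h, c_eq_cst D hx h, smul_eq_mul]
  · rw [ex0_of_notMem u h, map_zero, map_zero]

theorem rd_ext (u : Cn n → H) (j : A.ι) (w : G) {z : Cn n} (hz : z ∈ (A.e j).target) :
    rd D (ext D r i v u) j w z = op r v (cst D j i * w) (ex0 A i u ((A.e j).symm z)) :=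
  ext_pt D r v u j w ((A.e j).map_target hz)

theorem rd_ext_chart (u : Cn n → H) (w : G) {z : Cn n} (hz : z ∈ (A.e i).target) :
    rd D (ext D r i v u) i w z = op r v w (u z) := by
  have hx := (A.e i).map_target hz
  rw [rd, ext, D.pr_pt, D.co_pt w hx, ex0_symm u hz]

theorem rd_ext_self (u : Cn n → H) {z : Cn n} (hz : z ∈ (A.e i).target) :
    rd D (ext D r i v u) i v z = u z := by rw [rd_ext_chart D r v u v hz, op_self]

theorem rd_ext_ne (u : Cn n → H) {w : G} (h : w⁻¹ * v ∉ M) {z : Cn n} (hz : z ∈ (A.e i).target) :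
    rd D (ext D r i v u) i w z = 0 := by
  rw [rd_ext_chart D r v u w hz, op_of_notMem r h]; rfl

theorem rd_ext_self_ev (u : Cn n → H) {z : Cn n} (hz : z ∈ (A.e i).target) :
    rd D (ext D r i v u) i v =ᶠ[𝓝 z] u := by
  filter_upwards [(A.e i).open_target.mem_nhds hz] with w hw using rd_ext_self D r v u hw

theorem rd_ext_ne_ev (u : Cn n → H) {w : G} (h : w⁻¹ * v ∉ M) {z : Cn n}
    (hz : z ∈ (A.e i).target) : rd D (ext D r i v u) i w =ᶠ[𝓝 z] fun _ => 0 := by
  filter_upwards [(A.e i).open_target.mem_nhds hz] with y hy using rd_ext_ne D r v u h hy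

theorem th_congr {F F' : Cn n → H} {z : Cn n} (h : F =ᶠ[𝓝 z] F') : th F z = th F' z := by
  funext b
  simp only [th, wd, h.fderiv_eq]

theorem th_zero (z : Cn n) : th (fun _ : Cn n => (0 : H)) z = 0 := by
  funext b
  simp [th, wd, wdL]

theorem th_of_ev {F : Cn n → H} {z : Cn n} (h : F =ᶠ[𝓝 z] fun _ => 0) : th F z = 0 := by
  rw [th_congr h, th_zero]


theorem th_ext_self (u : Cn n → H) {z : Cn n} (hz : z ∈ (A.e i).target) :
    th (rd D (ext D r i v u) i v) z = th u z := th_congr (rd_ext_self_ev D r v u hz)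

theorem th_ext_ne (u : Cn n → H) {w : G} (h : w⁻¹ * v ∉ M) {z : Cn n} (hz : z ∈ (A.e i).target) :
    th (rd D (ext D r i v u) i w) z = 0 := th_of_ev (rd_ext_ne_ev D r v u h hz)


variable [T2Space X]

theorem rd_ext_ev (hc : HasCompactSupport u) (hs : tsupport u ⊆ (A.e i).target) (j : A.ι) (w : G)
    {z : Cn n} (hz : z ∈ (A.e j).target) (h : (A.e j).symm z ∉ (A.e i).symm '' tsupport u) :
    rd D (ext D r i v u) j w =ᶠ[𝓝 z] fun _ => 0 := by
  filter_upwards [(A.e j).open_target.mem_nhds hz,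
    ((A.e j).continuousAt_symm hz).eventually (ex0_ev hc hs h)] with y hy h1
  rw [rd_ext D r v u j w hy, h1, map_zero]

theorem th_ext_off (hc : HasCompactSupport u) (hs : tsupport u ⊆ (A.e i).target) (j : A.ι) (w : G)
    {x : X} (hx : x ∈ (A.e j).source) (h : x ∉ (A.e i).source) :
    th (rd D (ext D r i v u) j w) (A.e j x) = 0 := by
  refine th_of_ev (rd_ext_ev D r v hc hs j w ((A.e j).map_source hx) ?_)
  rw [(A.e j).left_inv hx]
  rintro ⟨z, hz, rfl⟩
  exact h ((A.e i).map_target (hs hz))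

theorem sm_ext (hu : ContDiff ℝ ∞ u) (hc : HasCompactSupport u)
    (hs : tsupport u ⊆ (A.e i).target) : (D.atl G).Sm (ext D r i v u) := fun p =>
  (((op r v (cst D p.1 i * p.2)).restrictScalars ℝ).contDiff.comp_contDiffOn
    (sm_ex0 hu hc hs p.1)).congr fun _ hz => rd_ext D r v u p.1 p.2 hz

/-- **the extension is a smooth real equivariant map** -/
theorem eqv_ext (hu : ContDiff ℝ ∞ u) (hc : HasCompactSupport u)
    (hs : tsupport u ⊆ (A.e i).target) (hr : ∀ z, r.J (u z) = u z) :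
    Eqv D M r (fun _ => 0) (ext D r i v u) where
  sm := sm_ext D r v hu hc hs
  real e := by
    rw [ext, J_op]
    congr 1
    by_cases h : D.pr e ∈ (A.e i).source
    · rw [ex0_of_mem u h, hr]
    · rw [ex0_of_notMem u h, map_zero]
  eqv m e := by rw [ext, ext, D.co_deck, D.pr_deck, op_mul, add_zero]

variable {D} {a : D.cov G → Cn q}



variable [Finite A.ι] [Countable G] (K : Kah A) {R : ℝ} {Φ : A.ι → G → Cn n → ℂ}

/-- **densities living on one sheet modulo `M`** -/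
theorem IM_one (hd : Dat D M a) (h : Den D M a R Φ) (i : A.ι) (v : G)
    (h0 : ∀ j w, ∀ x ∈ (A.e j).source, x ∉ (A.e i).source → Φ j w (A.e j x) = 0)
    (h1 : ∀ w, w⁻¹ * v ∉ M → ∀ z ∈ (A.e i).target, Φ i w z = 0) :
    IM D K M Φ = ∫ z in (A.e i).target, Φ i v z := by
  rw [IM_eq_sum K hd h i {(v : G ⧸ M)} h0 fun w hw z hz => h1 _ (fun h2 => hw ?_) z hz,
    Finset.sum_singleton]
  · exact setIntegral_congr_fun (A.e i).open_target.measurableSet fun z hz => h.out i v hz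
  · rw [Finset.mem_singleton, ← QuotientGroup.out_eq' w]
    exact QuotientGroup.eq.2 h2


end

end Crest.Agent.X261.Fam1
end

-- ▼ part X261/Fam20/E

/-!
# X261, package FAM (helper20), file `E`: the minimisation side from the extension of tests

* `Ext D K M a r` : flat test functions extend to equivariant maps;
* `sq_of` : approximate minimisers read in a chart;
* `nr_of` : `Fam69.Nr`.
-/

set_option autoImplicit false
set_option linter.unusedSectionVars false

open Set Filter Topology MeasureTheory Matrix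
open scoped ComplexConjugate ComplexOrder InnerProductSpace ContDiff

namespace Crest.Agent.X261.Fam20

open Crest.Agent.R275.Geo Crest.Agent.R275.Core144 Crest.Agent.R273.UCov_914
open Crest.Agent.R273.Kah_333 Crest.Agent.R275.EDR890
open Crest.Agent.R273.Fock_243
open Crest.Agent.R273.Vol_333 (volK)
open Crest.Agent.R273.RMan4_798 (pullKah)
open Crest.Agent.T223.Hm (ix_mem)
open Crest.Agent.X261.Fam
open Crest.Agent.X261.Fam77 (hol_rd sm_rd dif_rd)
open Crest.Agent.X261.Fam79 (BF PF Af QF Loc Cc Cu ex cut cu_cut ev_cut)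
open Crest.Agent.X261.Fam69 (aL SqG E0 Ee Nr NrStmt)
open Crest.Agent.X261.Rel.Act (Rep Act)

noncomputable section

variable {n q : ℕ} {H : Type*} [NormedAddCommGroup H] [InnerProductSpace ℂ H]

theorem en_le_sq {K : Set (Cn n)} (hK : IsCompact K) {Q : Cn n → Mt n} (hQ : ContinuousOn Q K) :
    ∃ C : ℝ, 0 < C ∧ ∀ z ∈ K, ∀ θ : Fin n → H, en (Q z) θ ≤ C * sq θ := by
  obtain ⟨C, hC⟩ := hK.exists_bound_of_continuousOn
    (f := fun z => (fun r p => Q z r p : Fin n → Fin n → ℂ)) hQ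
  refine ⟨|C| * n + 1, by positivity, fun z hz θ => ?_⟩
  have h1 := norm_ip_le_ent (X := Q z) (z := |C|) (fun r p => (norm_le_pi_norm _ p).trans
    ((norm_le_pi_norm (fun r p => Q z r p : Fin n → Fin n → ℂ) r).trans
      ((hC z hz).trans (le_abs_self C)))) θ
  rw [Fintype.card_fin] at h1
  have h2 := (Complex.re_le_norm _).trans h1
  have h3 := sq_nonneg' θ
  unfold en
  nlinarith

theorem sq_le_en {K : Set (Cn n)} (hK : IsCompact K) {Q : Cn n → Mt n} (hQ : ContinuousOn Q K)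
    (hp : ∀ z ∈ K, (Q z).PosDef) :
    ∃ C : ℝ, 0 < C ∧ ∀ z ∈ K, ∀ θ : Fin n → H, sq θ ≤ C * en (Q z) θ := by
  have h : ContinuousOn (fun z => ((Q z).det)⁻¹ • (Q z).adjugate) K :=
    (((continuous_id.matrix_det).comp_continuousOn hQ).inv₀ fun z hz =>
      (hp z hz).det_pos.ne').smul ((continuous_id.matrix_adjugate).comp_continuousOn hQ)
  have hi : ContinuousOn (fun z => (Q z)⁻¹) K := h.congr fun z _ => by
    simp only [Matrix.inv_def, Ring.inverse_eq_inv']
  obtain ⟨C, hC, h1⟩ := en_le_sq (H := H) hK hi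
  refine ⟨C, hC, fun z hz θ => ?_⟩
  have hz' := hp z hz
  have hu : IsUnit (Q z).det := hz'.det_pos.ne'.isUnit
  have h2 := norm_ip_le hz'.posSemidef θ (ac (Q z)⁻¹ θ) C hC
  have h3 : ip (Q z) θ (ac (Q z)⁻¹ θ) = (sq θ : ℂ) := by
    rw [ip, ← ac_mul, Matrix.mul_nonsing_inv _ hu, ac_one, dt_self]
  have h4 : en (Q z) (ac (Q z)⁻¹ θ) = en (Q z)⁻¹ θ := by
    rw [← en_conj, hz'.inv.1.eq, Matrix.nonsing_inv_mul _ hu, Matrix.one_mul]
  rw [h3, h4, Complex.norm_real, Real.norm_of_nonneg (sq_nonneg' θ)] at h2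
  have h5 : 1 / (2 * C) * en (Q z)⁻¹ θ ≤ 1 / (2 * C) * (C * sq θ) :=
    mul_le_mul_of_nonneg_left (h1 z hz θ) (by positivity)
  have h6 : 1 / (2 * C) * (C * sq θ) = sq θ / 2 := by field_simp
  linarith

variable {X : Type} [TopologicalSpace X] {A : Atl n X} {G : Type} [Group G]
variable [Finite A.ι] [Countable G] [T2Space X]
variable {D : MonD A G} {M : Subgroup G} {a : D.cov G → Cn q} {r : Rep M H} {b : M → H}

/-- flat tests extend to equivariant maps -/
def Ext (D : MonD A G) (K : Kah A) (M : Subgroup G) (a : D.cov G → Cn q) (r : Rep M H) : Prop :=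
  ∀ i v (u : Cn n → H), ContDiff ℝ ∞ u → HasCompactSupport u → tsupport u ⊆ (A.e i).target →
    (∀ z, r.J (u z) = u z) → ∃ u', Eqv D M r 0 u' ∧
      (∀ z ∈ (A.e i).target, th (Fam.rd D u' i v) z = th u z) ∧
      ∀ Q w f, QT D M Q → Cc w → f ∈ TT D M r →
        IM D K M (dQ D a Q w u' f) = ∫ z in (A.e i).target, dQ D a Q w u' f i v z

attribute [local instance] Fam.mZ Fam.bZ Fam.cZ

variable (K : Kah A)

theorem th_off {u : Cn n → H} {z : Cn n} (hz : z ∉ tsupport u) : th u z = 0 := by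
  funext c
  rw [th, wd_congr (g := fun _ => 0) (notMem_tsupport_iff_eventuallyEq.1 hz), wd_const]
  rfl

theorem ip_zero_left (Q : Mt n) (θ : Fin n → H) : ip Q 0 θ = 0 := by simp [ip_eq]

/-- the pairing of a test with a map -/
theorem BQ_ext {Q : A.ι → G → Cn n → Mt n} (hQ : QT D M Q) {w : Cn q → ℝ}
    {i : A.ι} {v : G} {u : Cn n → H} (hu : ContDiff ℝ ∞ u) (hc : HasCompactSupport u)
    (hs : tsupport u ⊆ (A.e i).target) {u' f : D.cov G → H} (hf : f ∈ TT D M r)
    (h1 : ∀ z ∈ (A.e i).target, th (Fam.rd D u' i v) z = th u z)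
    (h2 : IM D K M (dQ D a Q w u' f) = ∫ z in (A.e i).target, dQ D a Q w u' f i v z)
    (hw : ∀ z ∈ tsupport u, w (Fam.rd D a i v z) = 1) :
    BQ D K M a Q w u' f = ∫ z, (ip (Q i v z) (th u z) (th (Fam.rd D f i v) z)).re := by
  have h3 : ∀ z ∉ tsupport u, ip (Q i v z) (th u z) (th (Fam.rd D f i v) z) = 0 := fun z hz => by
    rw [th_off hz, ip_zero_left]
  have h4 : ContinuousOn (fun z => ip (Q i v z) (th u z) (th (Fam.rd D f i v) z)) (tsupport u) := by
    simp only [ip_eq]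
    exact continuousOn_finsetSum _ fun c _ => continuousOn_finsetSum _ fun d _ =>
      ((continuousOn_pi.1 (continuousOn_pi.1 (hQ.cont i v) c) d).mono hs).mul
        (((contDiffOn_wd isOpen_univ hu.contDiffOn (false, c)).continuousOn.mono
          (subset_univ _)).inner ((cont_th hf.1 i v d).mono hs))
  have h5 : Integrable fun z => ip (Q i v z) (th u z) (th (Fam.rd D f i v) z) :=
    (integrableOn_iff_integrable_of_support_subset fun z hz => by
      by_contra h
      exact hz (h3 z h)).1 (h4.integrableOn_compact hc)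
  rw [BQ, h2, setIntegral_congr_fun (A.e i).open_target.measurableSet
    (g := fun z => ip (Q i v z) (th u z) (th (Fam.rd D f i v) z)) fun z hz => ?_,
    setIntegral_eq_integral_of_forall_compl_eq_zero fun z hz => h3 z fun h => hz (hs h)]
  · exact (integral_re h5).symm
  · by_cases h : z ∈ tsupport u
    · simp only [dQ, hw z h, h1 z hz, Complex.ofReal_one, one_mul]
    · simp only [dQ, h1 z hz, h3 z h, mul_zero]

/-- a compact piece of a sheet carries less than the total integral -/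
theorem cpt_le_IM (hd : Dat D M a) {R : ℝ} {Φ : A.ι → G → Cn n → ℂ} (h : Den D M a R Φ)
    (e : ∀ i v, ∀ z ∈ (A.e i).target, 0 ≤ (Φ i v z).re) (j : A.ι) (v : G) {K' : Set (Cn n)}
    (hK : IsCompact K') (hK' : K' ⊆ (A.e j).target) :
    ∫ z in K', (Φ j v z).re ≤ (IM D K M Φ).re := by
  set E : Set (D.cov (G ⧸ M)) := (D.chart j (v : G ⧸ M)).source ∩ D.chart j (v : G ⧸ M) ⁻¹' K'ᶜ
    with hE
  have hEm : MeasurableSet E :=
    ((D.chart j (v : G ⧸ M)).isOpen_inter_preimage hK.isClosed.isOpen_compl).measurableSet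
  have h1 := setIntegral_chart (volK (pullKah D (G ⧸ M) K)) (j, (v : G ⧸ M))
    ((h.continuous_gl K).aestronglyMeasurable.indicator hEm.compl)
  have h2 : ∫ y in D.sheet j (v : G ⧸ M), Eᶜ.indicator (gl D K M Φ) y ∂mu D K M =
      ∫ z in K', Φ j v z := by
    refine h1.trans ?_
    change ∫ z in (A.e j).target, _ = _
    rw [← inter_eq_right.2 hK', ← setIntegral_indicator hK.measurableSet]
    refine setIntegral_congr_fun (A.e j).open_target.measurableSet fun z hz => ?_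
    have hx := (A.e j).map_target hz
    change (K.g j ((A.e j).symm z)).det.re •
      Eᶜ.indicator (gl D K M Φ) (D.pt j (v : G ⧸ M) ((A.e j).symm z)) = _
    have h3 : D.chart j (v : G ⧸ M) (D.pt j (v : G ⧸ M) ((A.e j).symm z)) = z :=
      (A.e j).right_inv hz
    by_cases hzK : z ∈ K'
    · rw [indicator_of_mem hzK, indicator_of_mem (fun h4 => h4.2 (by rwa [h3])),
        h.gl_pt K v hx, (A.e j).right_inv hz, Complex.real_smul, ← det_ofReal (K.pos j _ hx),
        mul_div_cancel₀ _ (K.pos j _ hx).det_pos.ne']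
    · rw [indicator_of_notMem hzK, indicator_of_notMem (notMem_compl_iff.2
        (show _ ∈ E from ⟨D.pt_mem_sheet _ hx, by rwa [mem_preimage, h3]⟩)), smul_zero]
  have hm := (D.isOpen_sheet j (v : G ⧸ M)).measurableSet
  have h4 := integral_re (((h.cont j v).mono hK').integrableOn_compact (μ := volume) hK)
  refine (le_of_eq h4).trans ?_
  rw [← h2, setIntegral_indicator hEm.compl, re_IM K hd h]
  refine le_trans (le_of_eq (integral_re (h.integrable K hd).integrableOn).symm)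
    (setIntegral_le_integral (h.integrable K hd).re (ae_of_all _ fun y => ?_))
  change 0 ≤ (gl D K M Φ y).re
  rw [re_gl]
  exact div_nonneg (e _ _ _ ((A.e _).map_source (ix_mem _))) (det_re_pos (K.pos _ _ (ix_mem _))).le

theorem sq_of (hd : Dat D M a) (hE : Ext D K M a r) {Q : A.ι → G → Cn n → Mt n} (hQ : QT D M Q)
    (hp : ∀ i v, ∀ z ∈ (A.e i).target, (Q i v z).PosDef) {χ : Cn q → ℝ} (hχ : Cc χ)
    (h0 : ∀ y, 0 ≤ χ y) {F : ℕ → D.cov G → H} (hF : ∀ j, Eqv D M r b (F j))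
    (hx : Tendsto (fun j => ex (BQ D K M a Q χ) (AA D M r b) (F j)) atTop (𝓝 0))
    (i : A.ι) (v : G) {K' : Set (Cn n)} (hK : IsCompact K') (hK' : K' ⊆ (A.e i).target)
    (h1 : ∀ z ∈ K', χ (Fam.rd D a i v z) = 1) :
    Sq (cjR r) (A.e i).target (Q i v) K' fun j => Fam.rd D (F j) i v := by
  have P : PF (TT D M r) (BQ D K M a Q χ) := (qf K hd hQ).pf hχ h0
  have hA : Af (TT D M r) (VV D M r) (AA D M r b) := af ⟨F 0, hF 0⟩
  obtain ⟨R, hR⟩ := exists_rad hχ.2
  refine ⟨fun j => sm_rd (hF j).sm i v, fun j z _ => (hF j).real _, fun η hη => ?_,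
    fun δ hδ => ?_⟩
  · obtain ⟨C, hC, h2⟩ := sq_le_en (H := H) hK ((hQ.cont i v).mono hK') fun z hz => hp i v z (hK' hz)
    obtain ⟨N, hN⟩ := eventually_atTop.1 (hx.eventually (ge_mem_nhds
      (show 0 < η / (4 * C) by positivity)))
    refine ⟨N, fun j hj k hk => ?_⟩
    have hT := (TT D M r).sub_mem (mem_TT (hF j)) (mem_TT (hF k))
    have hD := den_ip hd hQ hχ.1 hR hT hT
    have h3 := cpt_le_IM K hd hD (fun i v z hz => by
      rw [re_dQ]; exact mul_nonneg (h0 _) (en_nonneg (hQ.psd i v z hz) _)) i v hK hK'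
    have h4 := Fam79.par P hA (hF j) (hF k)
    have h5 : ∫ z in K', sq (th (Fam.rd D (F j) i v) z - th (Fam.rd D (F k) i v) z) ≤
        ∫ z in K', C * (dQ D a Q χ (F j - F k) (F j - F k) i v z).re := by
      refine setIntegral_mono_on ?_ ?_ hK.measurableSet fun z hz => ?_
      · refine ContinuousOn.integrableOn_compact hK ?_
        exact continuousOn_finsetSum _ fun c _ =>
          ((((cont_th (hF j).sm i v c).sub (cont_th (hF k).sm i v c)).mono hK').norm.pow 2 :)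
      · exact (continuousOn_const.mul (Complex.continuous_re.comp_continuousOn
          ((hD.cont i v).mono hK'))).integrableOn_compact hK
      · rw [re_dQ, h1 z hz, one_mul, th_rd_sub (hF j).sm (hF k).sm v (hK' hz)]
        exact h2 z hz _
    rw [integral_const_mul] at h5
    have h6 : C * BQ D K M a Q χ (F j - F k) (F j - F k) ≤ C * (4 * (η / (4 * C))) :=
      mul_le_mul_of_nonneg_left (by linarith [hN j hj, hN k hk]) hC.le
    have h7 : C * (4 * (η / (4 * C))) = η := by field_simp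
    exact h5.trans ((mul_le_mul_of_nonneg_left h3 hC.le).trans (h6.trans h7.le))
  · obtain ⟨C, hC, h2⟩ := en_le_sq (H := H) hK ((hQ.cont i v).mono hK')
    filter_upwards [hx.eventually (ge_mem_nhds (show 0 < δ ^ 2 / C by positivity))] with j hj u hu
      hs hr
    have hc : HasCompactSupport u := hK.of_isClosed_subset (isClosed_tsupport u) hs
    obtain ⟨u', h3, h4, h5⟩ := hE i v u hu hc (hs.trans hK') hr
    have h6 := Fam79.el P hA (hF j) (u := u') h3
    rw [BQ_ext K hQ hu hc (hs.trans hK') (mem_TT (hF j)) h4 (h5 Q χ _ hQ hχ (mem_TT (hF j)))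
      fun z hz => h1 z (hs hz), BQ_ext K hQ hu hc (hs.trans hK') (mem_TT h3) h4
      (h5 Q χ _ hQ hχ (mem_TT h3)) fun z hz => h1 z (hs hz)] at h6
    refine h6.trans ?_
    have h7 : ∫ z, (ip (Q i v z) (th u z) (th (Fam.rd D u' i v) z)).re ≤ C * ∫ z, sq (th u z) := by
      rw [← integral_const_mul]
      refine integral_mono_of_nonneg (ae_of_all _ fun z => ?_) ?_ (ae_of_all _ fun z => ?_)
      · by_cases h : z ∈ tsupport u
        · simp only [h4 z (hK' (hs h))]
          exact en_nonneg (hQ.psd i v z (hK' (hs h))) _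
        · simp only [th_off h, ip_zero_left, Complex.zero_re, Pi.zero_apply, le_refl]
      · refine Integrable.const_mul (Continuous.integrable_of_hasCompactSupport ?_ ?_) C
        · exact continuous_finsetSum _ fun c _ => (continuousOn_univ.1
            (contDiffOn_wd isOpen_univ hu.contDiffOn (false, c)).continuousOn).norm.pow 2
        · exact HasCompactSupport.intro hc fun z hz => by simp [th_off hz, Fam.sq]
      · by_cases h : z ∈ tsupport u
        · simp only [h4 z (hK' (hs h))]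
          exact h2 z (hs h) _
        · simp [th_off h, ip_zero_left, Fam.sq]
    calc _ ≤ √(δ ^ 2 / C) * √(C * ∫ z, sq (th u z)) := by gcongr
      _ = δ * √(∫ z, sq (th u z)) := by
        rw [Real.sqrt_mul hC.le, ← mul_assoc, ← Real.sqrt_mul (by positivity),
          div_mul_cancel₀ _ hC.ne', Real.sqrt_sq hδ.le]

theorem norm_le_mL {L : Mt q} (hL : L.det ≠ 0) (y : Cn q) : ‖y‖ ≤ ‖Fam.mL L⁻¹‖ * ‖Fam.mL L y‖ := by
  have h1 : Fam.mL L⁻¹ (Fam.mL L y) = y := by
    rw [← mul_apply_eq_comp, Fam.mL, Fam.mL, ← map_mul,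
      Matrix.nonsing_inv_mul _ hL.isUnit, map_one]
    rfl
  conv_lhs => rw [← h1]
  exact ContinuousLinearMap.le_opNorm _ _

theorem cc_mL {L : Mt q} (hL : L.det ≠ 0) {χ : Cn q → ℝ} (h : Cc χ) : Cc fun y => χ (Fam.mL L y) := by
  obtain ⟨R, hR⟩ := exists_rad h.2
  refine ⟨h.1.comp (Fam.mL L).continuous, HasCompactSupport.intro
    (isCompact_closedBall 0 (‖Fam.mL L⁻¹‖ * R)) fun y hy => hR _ (lt_of_not_ge fun h1 => hy ?_)⟩
  rw [mem_closedBall_zero_iff]
  exact (norm_le_mL hL y).trans (mul_le_mul_of_nonneg_left h1 (norm_nonneg _))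

theorem E0_sub (hd : Dat D M a) (L : Mt q) (w : Cn q → ℝ) {f g : D.cov G → H}
    (hf : (D.atl G).Sm f) (hg : (D.atl G).Sm g) :
    E0 D K M (aL L a) w (fun i v z => th (Fam.rd D f i v) z - th (Fam.rd D g i v) z) =
      BQ D K M a (Q0f D K (aM L a)) (fun y => w (Fam.mL L y)) (f - g) (f - g) := by
  rw [BQ_self K (qt_Q0L K hd L), E0]
  congr 1
  refine IM_congr K fun i v z hz => ?_
  rw [th_rd_sub hf hg v hz]
  rfl

theorem exists_cut {w : Cn q → ℝ} (hw : Cc w) (ρ : ℝ) : ∃ κ, Cu κ ∧ ∃ C : ℝ, 0 < C ∧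
    (∀ y, ‖y‖ ≤ ρ → κ y = 1) ∧ ∀ y, w y ≤ C * κ y := by
  obtain ⟨k, hk⟩ := (ev_cut ((isCompact_closedBall (0 : Cn q) ρ).union hw.2)).exists
  obtain ⟨C, hC⟩ := hw.1.bounded_above_of_compact_support hw.2
  refine ⟨_, cu_cut k, |C| + 1, by positivity,
    fun y hy => hk y (Or.inl (mem_closedBall_zero_iff.2 hy)), fun y => ?_⟩
  by_cases hy : y ∈ tsupport w
  · rw [hk y (Or.inr hy), mul_one]
    linarith [le_abs_self (w y), hC y, le_abs_self C, Real.norm_eq_abs (w y)]
  · rw [image_eq_zero_of_notMem_tsupport hy]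
    exact mul_nonneg (by positivity) ((cu_cut k).nn y)

/-- **the minimisation side** -/
theorem nr_of (hd : Dat D M a) (hE : Ext D K M a r) (h0 : ∃ f, Eqv D M r b f) :
    ∃ (f : ℕ → D.cov G → H) (ν : Measure (Cn q)), IsLocallyFiniteMeasure ν ∧
      Nr D K M a r b f ν := by
  have hA : Af (TT D M r) (VV D M r) (AA D M r b) := af h0
  have H0 : QF (TT D M r) (BQ D K M a (Q0f D K a)) := qf K hd (qt_Q0 K hd)
  obtain ⟨f, ν, hν, hf, hx, hl, -⟩ := Fam79.exists_glob H0 hA (loc0 K hd)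
  have hcl : ∀ {w κ : Cn q → ℝ} {C : ℝ}, Cc w → Cu κ → 0 < C → (∀ y, w y ≤ C * κ y) →
      ∀ F ∈ AA D M r b, ∀ F' ∈ AA D M r b, BQ D K M a (Q0f D K a) w (F - F') (F - F') ≤
        C * (2 * ex (BQ D K M a (Q0f D K a) κ) (AA D M r b) F +
          2 * ex (BQ D K M a (Q0f D K a) κ) (AA D M r b) F') := by
    intro w κ C hw hκ hC h F hF F' hF'
    have hT := hA.le (hA.diff F hF F' hF')
    refine (H0.mono hw (hκ.cc.smul C) h hT).trans ?_
    rw [H0.wsmul _ hκ.cc C _ hT _ hT]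
    exact mul_le_mul_of_nonneg_left (Fam79.par (H0.pf hκ.cc hκ.nn) hA hF hF') hC.le
  refine ⟨f, ν, hν, hf, fun w h1 h2 _ η hη => ?_, fun i v u hu hc hs hr => ?_,
    fun w h1 h2 => ?_, fun L hL R χ h1 h2 h3 η hη => ?_⟩
  · obtain ⟨κ, hκ, C, hC, -, h4⟩ := exists_cut ⟨h1, h2⟩ 0
    obtain ⟨N, hN⟩ := eventually_atTop.1 ((hx κ hκ).eventually (ge_mem_nhds
      (show 0 < η / (4 * C) by positivity)))
    refine ⟨N, fun k hk l hl' => ?_⟩
    have h5 : E0 D K M a w (fun i v z => th (Fam.rd D (f k) i v) z - th (Fam.rd D (f l) i v) z) =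
        BQ D K M a (Q0f D K a) w (f k - f l) (f k - f l) := by
      rw [BQ_self K (qt_Q0 K hd), E0]
      congr 1
      refine IM_congr K fun i v z hz => ?_
      rw [th_rd_sub (hf k).sm (hf l).sm v hz]
      rfl
    rw [h5]
    refine (hcl ⟨h1, h2⟩ hκ hC h4 _ (hf k) _ (hf l)).trans ?_
    calc _ ≤ C * (4 * (η / (4 * C))) :=
          mul_le_mul_of_nonneg_left (by linarith [hN k hk, hN l hl']) hC.le
      _ = η := by field_simp
  · obtain ⟨u', h3, h4, h5⟩ := hE i v u hu hc hs hr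
    obtain ⟨ρ, hρ⟩ := hc.isCompact.exists_bound_of_continuousOn
      ((hol_rd hd i v).continuousOn.mono hs)
    obtain ⟨κ, hκ, -, -, h6, -⟩ := exists_cut (w := fun _ : Cn q => (0 : ℝ))
      ⟨continuous_const, HasCompactSupport.zero⟩ ρ
    have h7 := (((Real.continuous_sqrt.tendsto 0).comp (hx κ hκ)).mul_const
      √(BQ D K M a (Q0f D K a) κ u' u'))
    rw [Real.sqrt_zero, zero_mul] at h7
    refine squeeze_zero_norm (fun k => ?_) h7
    have h8 := Fam79.el (H0.pf hκ.cc hκ.nn) hA (hf k) (u := u') h3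
    rw [BQ_ext K (qt_Q0 K hd) hu hc hs (mem_TT (hf k)) h4
      (h5 _ κ _ (qt_Q0 K hd) hκ.cc (mem_TT (hf k))) fun z hz => h6 _ (hρ z hz)] at h8
    exact h8
  · refine (hl w ⟨h1, h2⟩).congr fun k => ?_
    rw [BQ_self K (qt_Q0 K hd)]
    rfl
  · have hw := cc_mL hL ⟨h1, h2⟩
    obtain ⟨κ, hκ, C, hC, h4, h5⟩ := exists_cut hw (‖Fam.mL L⁻¹‖ * R)
    set c : ℝ := ‖L.det‖ ^ 2 with hc
    have hc0 : 0 < c := pow_pos (norm_pos_iff.2 hL) 2
    set η' : ℝ := η / (C * (4 * c + 1)) with hη'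
    have hη0 : 0 < η' := by positivity
    have hη1 : C * (4 * c + 1) * η' = η := by rw [hη']; field_simp
    have hI : ∀ᶠ ε : ℝ in 𝓝[>] 0, ε ∈ Ioc (0 : ℝ) 1 := Ioc_mem_nhdsGT one_pos
    obtain ⟨δ, hδ, h6⟩ := Fam79.near (H0.pf hκ.cc hκ.nn) hA (l := 𝓝[>] (0 : ℝ))
      (be := fun ε => BQ D K M a (Qef D K (aM L a) ε) κ) hc0
      (hI.mono fun ε hε F hF => le_e K hd L hε.1 hκ.cc hκ.nn (mem_TT hF))
      (fun F hF => tend_e K hd L hκ.cc hκ.nn (mem_TT hF)) hη0
    obtain ⟨ε, hε, h7⟩ := (hI.and h6).exists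
    have hQ := qt_Qe K hd L hε.1
    have He : QF (TT D M r) (BQ D K M a (Qef D K (aM L a) ε)) := qf K hd hQ
    obtain ⟨F, hF, h8⟩ := Fam79.exists_seq (He.pf hκ.cc hκ.nn) hA
    have h9 := (h8.eventually (ge_mem_nhds hδ)).mono fun j hj => h7 (F j) (hF j) hj
    refine ⟨ε, hε.1, hε.2, F, hF, fun i v K' hK hK' hR => ?_, h9.mono fun j hj => ?_,
      h9.mono fun j hj => ?_⟩
    · exact sq_of K hd hE hQ (fun i v z hz => Qe_posDef (K.pos i _ ((A.e i).map_target hz)) _ hε.1)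
        hκ.cc hκ.nn hF h8 i v hK hK' fun z hz => h4 _ ((norm_le_mL hL _).trans
          (mul_le_mul_of_nonneg_left (hR z hz) (norm_nonneg _)))
    · have hT := mem_TT (hF j)
      have e1 : Ee D K M (aL L a) χ ε (fun i v z => th (Fam.rd D (F j) i v) z) =
          BQ D K M a (Qef D K (aM L a) ε) (fun y => χ (Fam.mL L y)) (F j) (F j) := by
        rw [BQ_self K hQ]
        rfl
      have e2 : E0 D K M (aL L a) χ (fun i v z => th (Fam.rd D (F j) i v) z) =
          c * BQ D K M a (Q0f D K a) (fun y => χ (Fam.mL L y)) (F j) (F j) := by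
        rw [hc, ← B0L K hd, BQ_self K (qt_Q0L K hd L)]
        rfl
      have e3 := le_e K hd L hε.1 ((hκ.cc.smul C).add (hw.smul (-1)))
        (fun y => by linarith [h5 y]) hT
      rw [He.wadd _ _ (hκ.cc.smul C) (hw.smul _) _ hT _ hT, He.wsmul _ hκ.cc _ _ hT _ hT,
        He.wsmul _ hw _ _ hT _ hT, H0.wadd _ _ (hκ.cc.smul C) (hw.smul _) _ hT _ hT,
        H0.wsmul _ hκ.cc _ _ hT _ hT, H0.wsmul _ hw _ _ hT _ hT, ← hc] at e3
      rw [e1, e2]
      have e4 := mul_le_mul_of_nonneg_left hj.1 hC.le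
      have e5 : 0 ≤ C * (4 * c) * η' := by positivity
      nlinarith
    · filter_upwards [(hx κ hκ).eventually (ge_mem_nhds hη0)] with k hk
      rw [E0_sub K hd L χ (hF j).sm (hf k).sm, B0L K hd, ← hc]
      have e1 := hcl hw hκ hC h5 _ (hF j) _ (hf k)
      have e2 : C * (2 * ex (BQ D K M a (Q0f D K a) κ) (AA D M r b) (F j) +
          2 * ex (BQ D K M a (Q0f D K a) κ) (AA D M r b) (f k)) ≤ C * (4 * η') :=
        mul_le_mul_of_nonneg_left (by linarith [hj.2.1]) hC.le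
      have e3 := mul_le_mul_of_nonneg_left (e1.trans e2) hc0.le
      have e5 : 0 ≤ C * η' := by positivity
      nlinarith

theorem ext_of (hd : Dat D M a) : Ext D K M a r := by
  intro i v u hu hc hs hr
  have h1 : Eqv D M r 0 (Fam1.ext D r i v u) := Fam1.eqv_ext D r v hu hc hs hr
  refine ⟨_, h1, fun z hz => Fam1.th_ext_self D r v u hz, fun Q w f hQ hw hf => ?_⟩
  obtain ⟨R, hR⟩ := exists_rad hw.2
  refine Fam1.IM_one K hd (den_ip hd hQ hw.1 hR (mem_TT h1) hf) i v (fun j w x hx h => ?_)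
    fun w h z hz => ?_
  · rw [dQ, Fam1.th_ext_off D r v hc hs j w hx h, ip_zero_left, mul_zero]
  · rw [dQ, Fam1.th_ext_ne D r v u h hz, ip_zero_left, mul_zero]

/-- **NR** -/
theorem nrStmt : NrStmt := fun _ _ _ _ _ _ _ _ P K _ _ _ D M _ hd _ _ _ _ α =>
  nr_of K hd (ext_of K hd) (Fam84.exists_eqv P D M α)

end

end Crest.Agent.X261.Fam20
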